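import Vale.Agent.P243.Plain

namespace Vale.Agent.P243.H344

open Vale.Agent.P243.Plain

/-- All axes of the covering are parallel to one plane, the plane orthogonal to `v ≠ 0`: the axis
direction of a cylinder consists of the vectors that project to zero. -/
def CoplanarAxes {K : Set (Fin 3 → ℝ)} (C : CylinderCovering K) : Prop :=
  ∃ v : Fin 3 → ℝ, v ≠ 0 ∧ ∀ i, ∀ x, (C.frame i).proj x = 0 → v ⬝ᵥ x = 0

/-- The covering uses at most two axis directions: the axis of each cylinder is spanned by `u₁`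
or by `u₂`, that is, its projection kills `u₁` or `u₂`. -/
def AtMostTwoAxes {K : Set (Fin 3 → ℝ)} (C : CylinderCovering K) : Prop :=
  ∃ u₁ u₂ : Fin 3 → ℝ, u₁ ≠ 0 ∧ u₂ ≠ 0 ∧ ∀ i, (C.frame i).proj u₁ = 0 ∨ (C.frame i).proj u₂ = 0

/-- The regular tetrahedron with vertices `(1,1,1)`, `(1,-1,-1)`, `(-1,1,-1)`, `(-1,-1,1)`. -/
def regularTetrahedron : Set (Fin 3 → ℝ) :=
  convexHull ℝ {![1, 1, 1], ![1, -1, -1], ![-1, 1, -1], ![-1, -1, 1]}

end Vale.Agent.P243.H344
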