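import Vale.Agent.P243.H344.Slice
import Vale.Agent.P243.H344.Defs
import Mathlib.MeasureTheory.Measure.Lebesgue.EqHaar
import Mathlib.LinearAlgebra.Determinant
import Mathlib.LinearAlgebra.Matrix.DotProduct

/-! # The half-area inequality for cylinders with coplanar axes -/

open MeasureTheory
open scoped ENNReal Matrix

namespace Vale.Agent.P243.H344

open Vale.Agent.P243.Plain

theorem integral_tent {a b : ℝ} (hab : a < b) :
    ∫ z in a..b, min (z - a) (b - z) = (b - a) ^ 2 / 4 := by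
  have h1 : IntervalIntegrable (fun z => min (z - a) (b - z)) volume a ((a + b) / 2) :=
    Continuous.intervalIntegrable (by fun_prop) _ _
  have h2 : IntervalIntegrable (fun z => min (z - a) (b - z)) volume ((a + b) / 2) b :=
    Continuous.intervalIntegrable (by fun_prop) _ _
  rw [← intervalIntegral.integral_add_adjacent_intervals h1 h2]
  have e1 : ∫ z in a..(a + b) / 2, min (z - a) (b - z) = ∫ z in a..(a + b) / 2, (z - a) := by
    apply intervalIntegral.integral_congr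
    intro z hz
    rw [Set.uIcc_of_le (by linarith)] at hz
    exact min_eq_left (by linarith [hz.2])
  have e2 : ∫ z in (a + b) / 2..b, min (z - a) (b - z) = ∫ z in (a + b) / 2..b, (b - z) := by
    apply intervalIntegral.integral_congr
    intro z hz
    rw [Set.uIcc_of_le (by linarith)] at hz
    exact min_eq_right (by linarith [hz.1])
  rw [e1, e2, intervalIntegral.integral_sub (by simp) (by simp), integral_id,
    intervalIntegral.integral_const, intervalIntegral.integral_sub (by simp) (by simp), integral_id,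
    intervalIntegral.integral_const]
  simp only [smul_eq_mul]
  ring

/-- The inequality for one coordinate system. -/
theorem main_ineq {ι : Type*} [Fintype ι] {p q v : Fin 3 → ℝ} (hpp : p ⬝ᵥ p = 1)
    (hqq : q ⬝ᵥ q = 1) (hvv : v ⬝ᵥ v = 1) (hpq : p ⬝ᵥ q = 0) (hpv : p ⬝ᵥ v = 0)
    (hqv : q ⬝ᵥ v = 0) {K : Set (Fin 3 → ℝ)} (hK : IsConvexBody K) (P : ι → Set (ℝ × ℝ))
    (α β : ι → ℝ) (hu : ∀ i, α i ^ 2 + β i ^ 2 = 1)
    (hcov : ∀ x ∈ K, ∃ i, (α i * (p ⬝ᵥ x) + β i * (q ⬝ᵥ x), v ⬝ᵥ x) ∈ P i) :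
    ENNReal.ofReal (1 / 2 * Amin K) ≤ ∑ i, volume (P i) := by
  obtain ⟨hc, hKv, x0, hx0⟩ := hK
  have hne : K.Nonempty := ⟨x0, interior_subset hx0⟩
  obtain ⟨a, ha, hamin⟩ := hc.exists_isMinOn hne (continuous_dot v).continuousOn
  obtain ⟨b, hb, hbmax⟩ := hc.exists_isMaxOn hne (continuous_dot v).continuousOn
  have hrange : ∀ x ∈ K, v ⬝ᵥ a ≤ v ⬝ᵥ x ∧ v ⬝ᵥ x ≤ v ⬝ᵥ b := fun x hx => ⟨hamin hx, hbmax hx⟩
  have hab : v ⬝ᵥ a < v ⬝ᵥ b := by
    have hcont : Continuous fun t : ℝ => x0 + t • v := by fun_prop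
    have hnh : (fun t : ℝ => x0 + t • v) ⁻¹' interior K ∈ nhds (0 : ℝ) := by
      apply hcont.continuousAt
      simp only [zero_smul, add_zero]
      exact isOpen_interior.mem_nhds hx0
    obtain ⟨ε, hε, hball⟩ := Metric.mem_nhds_iff.mp hnh
    have h1 : x0 + (ε / 2) • v ∈ K := interior_subset (hball (by
      rw [Metric.mem_ball, dist_zero_right, Real.norm_eq_abs, abs_of_pos (by positivity)]
      linarith))
    have h2 := (hrange _ h1).2
    have h3 := (hrange _ (interior_subset hx0)).1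
    rw [dotProduct_add, dotProduct_smul, hvv, smul_eq_mul] at h2
    linarith
  set H := v ⬝ᵥ b - v ⬝ᵥ a with hH
  have hH0 : 0 < H := by linarith
  set m := (v ⬝ᵥ a + v ⬝ᵥ b) / 2 with hm
  have hmid := wide_mid hpp hqq hvv hpq hpv hqv hc hKv ha hb hab hrange
  set W := Amin K / H with hW
  have hA0 : 0 ≤ Amin K := Real.iInf_nonneg fun F => ENNReal.toReal_nonneg
  have hW0 : 0 ≤ W := div_nonneg hA0 hH0.le
  set g : ℝ → ℝ := fun z => 2 * W / H * min (z - v ⬝ᵥ a) (v ⬝ᵥ b - z) with hg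
  have hwide : ∀ z ∈ Set.Icc (v ⬝ᵥ a) (v ⬝ᵥ b), Wide (slice p q v K z) (g z) := by
    rintro z ⟨hz1, hz2⟩
    rcases le_total z m with hzm | hzm
    · have h1 := wide_slice (p := p) (q := q) (v := v) hKv ha hmid (t := (z - v ⬝ᵥ a) / (H / 2))
        (div_nonneg (by linarith) (by positivity)) (by rw [div_le_one (by positivity)]; linarith)
      have e1 : (1 - (z - v ⬝ᵥ a) / (H / 2)) * (v ⬝ᵥ a)
          + (z - v ⬝ᵥ a) / (H / 2) * ((v ⬝ᵥ a + v ⬝ᵥ b) / 2) = z := by
        field_simp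
        rw [hH]; ring
      have e2 : (z - v ⬝ᵥ a) / (H / 2) * W = g z := by
        simp only [hg]
        rw [min_eq_left (by linarith)]
        field_simp
      rw [e1, e2] at h1
      exact h1
    · have h1 := wide_slice (p := p) (q := q) (v := v) hKv hb hmid (t := (v ⬝ᵥ b - z) / (H / 2))
        (div_nonneg (by linarith) (by positivity)) (by rw [div_le_one (by positivity)]; linarith)
      have e1 : (1 - (v ⬝ᵥ b - z) / (H / 2)) * (v ⬝ᵥ b)
          + (v ⬝ᵥ b - z) / (H / 2) * ((v ⬝ᵥ a + v ⬝ᵥ b) / 2) = z := by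
        field_simp
        rw [hH]; ring
      have e2 : (v ⬝ᵥ b - z) / (H / 2) * W = g z := by
        simp only [hg]
        rw [min_eq_right (by linarith)]
        field_simp
      rw [e1, e2] at h1
      exact h1
  set T : ι → Set (ℝ × ℝ) := fun i => toMeasurable volume (P i) with hT
  have hTm : ∀ i, MeasurableSet (T i) := fun i => measurableSet_toMeasurable _ _
  have hvol : ∀ i, volume (P i) = ∫⁻ z, volume {r : ℝ | (r, z) ∈ T i} := by
    intro i
    have h1 := Measure.prod_apply_symm (μ := (volume : Measure ℝ)) (ν := (volume : Measure ℝ))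
      (hTm i)
    rw [← measure_toMeasurable (P i)]
    exact h1
  have hmeas : ∀ i, Measurable fun z : ℝ => volume {r : ℝ | (r, z) ∈ T i} := fun i =>
    measurable_measure_prodMk_right (hTm i)
  have hpt : ∀ z, (Set.Icc (v ⬝ᵥ a) (v ⬝ᵥ b)).indicator (fun z => ENNReal.ofReal (g z)) z
      ≤ ∑ i, volume {r : ℝ | (r, z) ∈ T i} := by
    intro z
    by_cases hz : z ∈ Set.Icc (v ⬝ᵥ a) (v ⬝ᵥ b)
    · rw [Set.indicator_of_mem hz]
      apply bang_meas (isCompact_slice hc z) (convex_slice hKv z) (hwide z hz) α β hu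
      rintro _ ⟨x, ⟨hx, hx'⟩, rfl⟩
      obtain ⟨i, hi⟩ := hcov x hx
      have hx'' : v ⬝ᵥ x = z := hx'
      rw [hx''] at hi
      exact ⟨i, subset_toMeasurable _ _ hi⟩
    · rw [Set.indicator_of_notMem hz]
      exact zero_le
  have hgc : Continuous g := by simp only [hg]; fun_prop
  have hg0 : ∀ z ∈ Set.Icc (v ⬝ᵥ a) (v ⬝ᵥ b), 0 ≤ g z := by
    rintro z ⟨h1, h2⟩
    simp only [hg]
    have : 0 ≤ min (z - v ⬝ᵥ a) (v ⬝ᵥ b - z) := le_min (by linarith) (by linarith)
    positivity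
  have hint : ∫ z in Set.Icc (v ⬝ᵥ a) (v ⬝ᵥ b), g z = 1 / 2 * Amin K := by
    rw [integral_Icc_eq_integral_Ioc, ← intervalIntegral.integral_of_le hab.le]
    simp only [hg]
    rw [intervalIntegral.integral_const_mul, integral_tent hab, ← hH, hW]
    field_simp
    ring
  calc ENNReal.ofReal (1 / 2 * Amin K)
      = ENNReal.ofReal (∫ z in Set.Icc (v ⬝ᵥ a) (v ⬝ᵥ b), g z) := by rw [hint]
    _ = ∫⁻ z in Set.Icc (v ⬝ᵥ a) (v ⬝ᵥ b), ENNReal.ofReal (g z) := by
        apply ofReal_integral_eq_lintegral_ofReal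
        · exact hgc.continuousOn.integrableOn_compact isCompact_Icc
        · exact (ae_restrict_iff' measurableSet_Icc).mpr (Filter.Eventually.of_forall hg0)
    _ = ∫⁻ z, (Set.Icc (v ⬝ᵥ a) (v ⬝ᵥ b)).indicator (fun z => ENNReal.ofReal (g z)) z := by
        rw [lintegral_indicator measurableSet_Icc]
    _ ≤ ∫⁻ z, ∑ i, volume {r : ℝ | (r, z) ∈ T i} := lintegral_mono hpt
    _ = ∑ i, ∫⁻ z, volume {r : ℝ | (r, z) ∈ T i} :=
        lintegral_finsetSum _ fun i _ => hmeas i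
    _ = ∑ i, volume (P i) := Finset.sum_congr rfl fun i _ => (hvol i).symm

/-- The orthogonal matrix of a reflection of the plane, as a linear map. -/
def reflMap (c s : ℝ) : ℝ × ℝ →ₗ[ℝ] ℝ × ℝ where
  toFun y := (-s * y.1 + c * y.2, c * y.1 + s * y.2)
  map_add' y z := by
    ext <;> simp <;> ring
  map_smul' t y := by
    ext <;> simp <;> ring

theorem det_reflMap (c s : ℝ) : LinearMap.det (reflMap c s) = -(c ^ 2 + s ^ 2) := by
  rw [← LinearMap.det_toMatrix (Module.Basis.finTwoProd ℝ), Matrix.det_fin_two]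
  simp only [reflMap, LinearMap.toMatrix_apply, Module.Basis.finTwoProd_zero, LinearMap.coe_mk,
    AddHom.coe_mk, Module.Basis.coe_finTwoProd_repr, Module.Basis.finTwoProd_one,
    Matrix.cons_val_zero, Matrix.cons_val_one, Matrix.cons_val_fin_one]
  ring

theorem volume_reflMap {c s : ℝ} (h : c ^ 2 + s ^ 2 = 1) (B : Set (ℝ × ℝ)) :
    volume (reflMap c s ⁻¹' B) = volume B := by
  rw [Measure.addHaar_preimage_linearMap volume (by rw [det_reflMap, h]; norm_num),
    det_reflMap, h]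
  norm_num

/-- The data of a frame whose axis is orthogonal to the unit vector `v`. -/
theorem Frame.exists_rot (F : Frame) {v : Fin 3 → ℝ} (hvv : v ⬝ᵥ v = 1)
    (h : ∀ x, F.proj x = 0 → v ⬝ᵥ x = 0) : ∃ c s : ℝ, ∃ w : Fin 3 → ℝ, c ^ 2 + s ^ 2 = 1 ∧
      w ⬝ᵥ w = 1 ∧ w ⬝ᵥ v = 0 ∧ ∀ x, reflMap c s (w ⬝ᵥ x, v ⬝ᵥ x) = F.proj x := by
  set g := F.e ⨯₃ F.f with hg
  have heg : F.e ⬝ᵥ g = 0 := dot_self_cross _ _
  have hfg : F.f ⬝ᵥ g = 0 := dot_cross_self _ _
  have hgg : g ⬝ᵥ g = 1 := by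
    rw [hg, cross_dot_cross, F.norm_e, F.norm_f, F.orthogonal, zero_mul, sub_zero, one_mul]
  have hvg : v ⬝ᵥ g = 0 := h g (by simp only [Frame.proj, heg, hfg]; rfl)
  have hpar := parseval F.norm_e F.norm_f hgg F.orthogonal heg hfg
  have hgv : g ⬝ᵥ v = 0 := by rw [dotProduct_comm]; exact hvg
  have hvx : ∀ x, v ⬝ᵥ x = (F.e ⬝ᵥ v) * (F.e ⬝ᵥ x) + (F.f ⬝ᵥ v) * (F.f ⬝ᵥ x) := by
    intro x
    rw [hpar v x, hgv, zero_mul, add_zero]
  have hcs : (F.e ⬝ᵥ v) ^ 2 + (F.f ⬝ᵥ v) ^ 2 = 1 := by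
    have := hvx v
    rw [hvv] at this
    linarith
  refine ⟨F.e ⬝ᵥ v, F.f ⬝ᵥ v, (-(F.f ⬝ᵥ v)) • F.e + (F.e ⬝ᵥ v) • F.f, hcs, ?_, ?_, ?_⟩
  · simp only [add_dotProduct, dotProduct_add, smul_dotProduct, dotProduct_smul, F.norm_e,
      F.norm_f, F.orthogonal, dotProduct_comm F.f F.e, smul_eq_mul]
    linear_combination hcs
  · simp only [add_dotProduct, smul_dotProduct, smul_eq_mul]
    ring
  · intro x
    simp only [reflMap, LinearMap.coe_mk, AddHom.coe_mk, Frame.proj, add_dotProduct,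
      smul_dotProduct, smul_eq_mul, hvx x, Prod.mk.injEq]
    constructor
    · linear_combination (F.e ⬝ᵥ x) * hcs
    · linear_combination (F.f ⬝ᵥ x) * hcs

/-- Bang's half-area inequality holds for coverings with coplanar axes. -/
theorem half_area {K : Set (Fin 3 → ℝ)} (hK : IsConvexBody K) (C : CylinderCovering K)
    (h : CoplanarAxes C) : 1 / 2 * Amin K ≤ C.totalArea := by
  obtain ⟨v', hv0, hv'⟩ := h
  -- a unit normal vector
  have hpos : 0 < v' ⬝ᵥ v' := by
    have h1 : 0 ≤ v' ⬝ᵥ v' := by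
      simp only [dotProduct]
      exact Finset.sum_nonneg fun i _ => mul_self_nonneg _
    rcases h1.eq_or_lt with h2 | h2
    · exact absurd (dotProduct_self_eq_zero.mp h2.symm) hv0
    · exact h2
  set N := Real.sqrt (v' ⬝ᵥ v') with hN
  have hN2 : N * N = v' ⬝ᵥ v' := Real.mul_self_sqrt hpos.le
  have hN0 : N ≠ 0 := (Real.sqrt_pos.mpr hpos).ne'
  set v := N⁻¹ • v' with hv
  have hvv : v ⬝ᵥ v = 1 := by
    rw [hv, smul_dotProduct, dotProduct_smul, ← hN2, smul_eq_mul, smul_eq_mul]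
    field_simp
  have hker : ∀ i, ∀ x, (C.frame i).proj x = 0 → v ⬝ᵥ x = 0 := by
    intro i x hx
    rw [hv, smul_dotProduct, hv' i x hx, smul_zero]
  choose c s w hcs hww hwv hproj using fun i => Frame.exists_rot (C.frame i) hvv (hker i)
  -- a coordinate system
  obtain ⟨x0, hx0⟩ : K.Nonempty := hK.2.2.mono interior_subset
  obtain ⟨i0, -⟩ := Set.mem_iUnion.mp (C.covers hx0)
  set p := w i0 with hp
  set q := v ⨯₃ p with hq
  have hvp : v ⬝ᵥ p = 0 := by rw [dotProduct_comm]; exact hwv i0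
  have hqv : q ⬝ᵥ v = 0 := by rw [dotProduct_comm]; exact dot_self_cross _ _
  have hpq : p ⬝ᵥ q = 0 := dot_cross_self _ _
  have hqq : q ⬝ᵥ q = 1 := by
    rw [hq, cross_dot_cross, hvv, hww i0, hvp, zero_mul, sub_zero, one_mul]
  have hpar := parseval (hww i0) hqq hvv hpq (hwv i0) hqv
  have hexp : ∀ i x, w i ⬝ᵥ x = (p ⬝ᵥ w i) * (p ⬝ᵥ x) + (q ⬝ᵥ w i) * (q ⬝ᵥ x) := by
    intro i x
    rw [hpar (w i) x, dotProduct_comm v (w i), hwv i, zero_mul, add_zero]
  have hmain := main_ineq (hww i0) hqq hvv hpq (hwv i0) hqv hK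
    (fun i => reflMap (c i) (s i) ⁻¹' C.base i) (fun i => p ⬝ᵥ w i) (fun i => q ⬝ᵥ w i)
    (fun i => by
      have := hexp i (w i)
      rw [hww i] at this
      linarith)
    (fun x hx => by
      obtain ⟨i, hi⟩ := Set.mem_iUnion.mp (C.covers hx)
      refine ⟨i, ?_⟩
      have hi' : (C.frame i).proj x ∈ C.base i := hi
      rw [Set.mem_preimage, ← hexp, hproj]
      exact hi')
  simp only [volume_reflMap (hcs _)] at hmain
  have hfin : ∑ i, volume (C.base i) ≠ ∞ :=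
    ENNReal.sum_ne_top.mpr fun i _ => C.finite_area i
  have h2 := ENNReal.toReal_mono hfin hmain
  rw [ENNReal.toReal_ofReal (by
    have : 0 ≤ Amin K := Real.iInf_nonneg fun F => ENNReal.toReal_nonneg
    positivity), ENNReal.toReal_sum fun i _ => C.finite_area i] at h2
  exact h2

end Vale.Agent.P243.H344
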