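import Vale.Agent.P243.H344.TwoAxes

/-! # Coverings with at most two axis directions -/

open MeasureTheory
open scoped ENNReal Matrix

namespace Vale.Agent.P243.H344

open Vale.Agent.P243.Plain

theorem exists_unit {u : Fin 3 → ℝ} (hu : u ≠ 0) : ∃ k : ℝ, k ≠ 0 ∧ (k • u) ⬝ᵥ (k • u) = 1 := by
  have hpos : 0 < u ⬝ᵥ u := by
    have h1 : 0 ≤ u ⬝ᵥ u := by
      simp only [dotProduct]
      exact Finset.sum_nonneg fun i _ => mul_self_nonneg _
    rcases h1.eq_or_lt with h2 | h2
    · exact absurd (dotProduct_self_eq_zero.mp h2.symm) hu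
    · exact h2
  have hN2 : Real.sqrt (u ⬝ᵥ u) * Real.sqrt (u ⬝ᵥ u) = u ⬝ᵥ u := Real.mul_self_sqrt hpos.le
  have hN0 : Real.sqrt (u ⬝ᵥ u) ≠ 0 := (Real.sqrt_pos.mpr hpos).ne'
  refine ⟨(Real.sqrt (u ⬝ᵥ u))⁻¹, inv_ne_zero hN0, ?_⟩
  rw [smul_dotProduct, dotProduct_smul, smul_eq_mul, smul_eq_mul]
  nth_rewrite 3 [← hN2]
  field_simp

theorem exists_normal (u₁ u₂ : Fin 3 → ℝ) :
    ∃ v : Fin 3 → ℝ, v ⬝ᵥ v = 1 ∧ v ⬝ᵥ u₁ = 0 ∧ v ⬝ᵥ u₂ = 0 := by
  have hdet : (Matrix.of ![u₁, u₂, 0]).det = 0 :=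
    Matrix.det_eq_zero_of_row_eq_zero 2 (fun j => by simp)
  obtain ⟨v, hv, hv0⟩ := Matrix.exists_mulVec_eq_zero_iff.mpr hdet
  have h1 : u₁ ⬝ᵥ v = 0 := by
    have := congrFun hv0 0
    simpa [Matrix.mulVec] using this
  have h2 : u₂ ⬝ᵥ v = 0 := by
    have := congrFun hv0 1
    simpa [Matrix.mulVec] using this
  obtain ⟨k, hk, hkv⟩ := exists_unit hv
  refine ⟨k • v, hkv, ?_, ?_⟩
  · rw [smul_dotProduct, dotProduct_comm, h1, smul_zero]
  · rw [smul_dotProduct, dotProduct_comm, h2, smul_zero]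

/-- An orthogonal map of the plane. -/
def orthMap (c s e : ℝ) : ℝ × ℝ →ₗ[ℝ] ℝ × ℝ where
  toFun y := (-s * e * y.1 + c * y.2, c * e * y.1 + s * y.2)
  map_add' y z := by
    ext <;> simp <;> ring
  map_smul' t y := by
    ext <;> simp <;> ring

theorem det_orthMap (c s e : ℝ) : LinearMap.det (orthMap c s e) = -(e * (c ^ 2 + s ^ 2)) := by
  rw [← LinearMap.det_toMatrix (Module.Basis.finTwoProd ℝ), Matrix.det_fin_two]
  simp only [orthMap, LinearMap.toMatrix_apply, Module.Basis.finTwoProd_zero, LinearMap.coe_mk,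
    AddHom.coe_mk, Module.Basis.coe_finTwoProd_repr, Module.Basis.finTwoProd_one,
    Matrix.cons_val_zero, Matrix.cons_val_one, Matrix.cons_val_fin_one]
  ring

theorem volume_orthMap {c s e : ℝ} (h : c ^ 2 + s ^ 2 = 1) (he : e ^ 2 = 1) (B : Set (ℝ × ℝ)) :
    volume (orthMap c s e ⁻¹' B) = volume B := by
  have he' : |e| = 1 := by
    have : |e| ^ 2 = 1 := by rw [sq_abs]; exact he
    nlinarith [abs_nonneg e]
  have he0 : e ≠ 0 := by rintro rfl; norm_num at he
  rw [Measure.addHaar_preimage_linearMap volume (by rw [det_orthMap, h]; simpa using he0),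
    det_orthMap, h, mul_one, abs_inv, abs_neg, he']
  simp

theorem injective_orthMap {c s e : ℝ} (h : c ^ 2 + s ^ 2 = 1) (he : e ^ 2 = 1) :
    Function.Injective (orthMap c s e) := by
  intro y z hyz
  simp only [orthMap, LinearMap.coe_mk, AddHom.coe_mk, Prod.mk.injEq] at hyz
  obtain ⟨h1, h2⟩ := hyz
  ext
  · have h3 : e ^ 2 * (c ^ 2 + s ^ 2) * y.1 = e ^ 2 * (c ^ 2 + s ^ 2) * z.1 := by
      linear_combination (-s * e) * h1 + (c * e) * h2
    rw [he, h, one_mul, one_mul, one_mul] at h3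
    exact h3
  · have h3 : (c ^ 2 + s ^ 2) * y.2 = (c ^ 2 + s ^ 2) * z.2 := by
      linear_combination c * h1 + s * h2
    rw [h, one_mul, one_mul] at h3
    exact h3

/-- The frame with second vector `v` and axis `u`. -/
def baseFrame (v u : Fin 3 → ℝ) (hvv : v ⬝ᵥ v = 1) (huu : u ⬝ᵥ u = 1) (hvu : v ⬝ᵥ u = 0) :
    Frame where
  e := v ⨯₃ u
  f := v
  norm_e := by rw [cross_dot_cross, hvv, huu, hvu, zero_mul, sub_zero, one_mul]
  norm_f := hvv
  orthogonal := by rw [dotProduct_comm]; exact dot_self_cross _ _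

/-- A frame with axis `u` differs from the base frame by an orthogonal map of the plane. -/
theorem exists_orth (F : Frame) {v u : Fin 3 → ℝ} (hvv : v ⬝ᵥ v = 1) (huu : u ⬝ᵥ u = 1)
    (hvu : v ⬝ᵥ u = 0) (hF : F.proj u = 0) : ∃ c s e : ℝ, c ^ 2 + s ^ 2 = 1 ∧ e ^ 2 = 1 ∧
      ∀ x, orthMap c s e ((baseFrame v u hvv huu hvu).proj x) = F.proj x := by
  -- the kernel of the projection is spanned by `u`
  have hker : ∀ x, F.proj x = 0 → v ⬝ᵥ x = 0 := by
    set g := F.e ⨯₃ F.f with hg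
    have heg : F.e ⬝ᵥ g = 0 := dot_self_cross _ _
    have hfg : F.f ⬝ᵥ g = 0 := dot_cross_self _ _
    have hgg : g ⬝ᵥ g = 1 := by
      rw [hg, cross_dot_cross, F.norm_e, F.norm_f, F.orthogonal, zero_mul, sub_zero, one_mul]
    have hpar := parseval F.norm_e F.norm_f hgg F.orthogonal heg hfg
    simp only [Frame.proj, Prod.mk_eq_zero] at hF
    have h1 := hpar u u
    rw [hF.1, hF.2, huu] at h1
    have h2 := hpar v u
    rw [hF.1, hF.2, hvu] at h2
    have hgu : g ⬝ᵥ u ≠ 0 := by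
      intro h0
      rw [h0] at h1
      norm_num at h1
    have hgv : g ⬝ᵥ v = 0 := by
      have : (g ⬝ᵥ v) * (g ⬝ᵥ u) = 0 := by linarith
      rcases mul_eq_zero.mp this with h3 | h3
      · exact h3
      · exact absurd h3 hgu
    intro x hx
    simp only [Frame.proj, Prod.mk_eq_zero] at hx
    rw [hpar v x, hx.1, hx.2, hgv]
    ring
  obtain ⟨c, s, w, hcs, hww, hwv, hproj⟩ := Frame.exists_rot F hvv hker
  set ω := v ⨯₃ u with hω
  have hωω : ω ⬝ᵥ ω = 1 := (baseFrame v u hvv huu hvu).norm_e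
  have hvω : v ⬝ᵥ ω = 0 := dot_self_cross _ _
  have huω : u ⬝ᵥ ω = 0 := dot_cross_self _ _
  have hpar := parseval hvv huu hωω hvu hvω huω
  have hwu : u ⬝ᵥ w = 0 := by
    have h1 := hproj u
    rw [hF, hvu] at h1
    simp only [reflMap, LinearMap.coe_mk, AddHom.coe_mk, Prod.mk_eq_zero, mul_zero,
      add_zero] at h1
    have h2 : (c ^ 2 + s ^ 2) * (w ⬝ᵥ u) = 0 := by
      linear_combination (-s) * h1.1 + c * h1.2
    rw [hcs, one_mul] at h2
    rw [dotProduct_comm]; exact h2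
  have hvw : v ⬝ᵥ w = 0 := by rw [dotProduct_comm]; exact hwv
  have hwx : ∀ x, w ⬝ᵥ x = (ω ⬝ᵥ w) * (ω ⬝ᵥ x) := by
    intro x
    rw [hpar w x, hvw, hwu]
    ring
  refine ⟨c, s, ω ⬝ᵥ w, hcs, ?_, ?_⟩
  · have := hwx w
    rw [hww] at this
    rw [sq]; exact this.symm
  · intro x
    rw [← hproj x]
    simp only [orthMap, reflMap, LinearMap.coe_mk, AddHom.coe_mk, Frame.proj, baseFrame, hwx x,
      ← hω, Prod.mk.injEq]
    constructor <;> ring

/-- The 1-codimensional cylinder covering inequality for coverings with at most two axis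
directions. -/
theorem rel_half {K : Set (Fin 3 → ℝ)} (hK : IsConvexBody K) (C : CylinderCovering K)
    (h : AtMostTwoAxes C) : 1 / 2 ≤ C.relArea := by
  classical
  obtain ⟨u1, u2, hu1, hu2, hC⟩ := h
  obtain ⟨k1, hk1, hk1'⟩ := exists_unit hu1
  obtain ⟨k2, hk2, hk2'⟩ := exists_unit hu2
  obtain ⟨v, hvv, hv1, hv2⟩ := exists_normal (k1 • u1) (k2 • u2)
  set F1 := baseFrame v (k1 • u1) hvv hk1' hv1 with hF1
  set F2 := baseFrame v (k2 • u2) hvv hk2' hv2 with hF2
  have hproj_smul : ∀ (F : Frame) (k : ℝ) (x : Fin 3 → ℝ), F.proj x = 0 → F.proj (k • x) = 0 := by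
    intro F k x hx
    simp only [Frame.proj, Prod.mk_eq_zero, dotProduct_smul, smul_eq_mul] at hx ⊢
    rw [hx.1, hx.2]
    exact ⟨mul_zero _, mul_zero _⟩
  -- for every cylinder the data of the orthogonal map
  have hdata : ∀ i, ∃ (b : Bool) (R : ℝ × ℝ → ℝ × ℝ), (∀ B : Set (ℝ × ℝ), volume (R ⁻¹' B) = volume B) ∧
      Function.Injective R ∧ ∀ x, R ((bif b then F1 else F2).proj x) = (C.frame i).proj x := by
    intro i
    rcases hC i with h1 | h1
    · obtain ⟨c, s, e, hcs, he, hx⟩ := exists_orth (C.frame i) hvv hk1' hv1 (hproj_smul _ k1 _ h1)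
      exact ⟨true, orthMap c s e, volume_orthMap hcs he, injective_orthMap hcs he, hx⟩
    · obtain ⟨c, s, e, hcs, he, hx⟩ := exists_orth (C.frame i) hvv hk2' hv2 (hproj_smul _ k2 _ h1)
      exact ⟨false, orthMap c s e, volume_orthMap hcs he, injective_orthMap hcs he, hx⟩
  choose b R hR hinj hx using hdata
  have hshadow : ∀ i, (C.frame i).shadow K = (bif b i then F1 else F2).shadow K := by
    intro i
    unfold Frame.shadow
    congr 1
    rw [← hR i ((C.frame i).proj '' K)]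
    congr 1
    ext y
    constructor
    · rintro ⟨x, hxK, hxy⟩
      rw [← hx i x] at hxy
      exact ⟨x, hxK, hinj i hxy⟩
    · rintro ⟨x, hxK, rfl⟩
      exact ⟨x, hxK, (hx i x).symm⟩
  set T : Bool → Set (ℝ × ℝ) := fun β =>
    ⋃ i ∈ Finset.univ.filter (fun i => b i = β), toMeasurable volume (R i ⁻¹' C.base i) with hT
  have hTm : ∀ β, MeasurableSet (T β) := fun β =>
    Finset.measurableSet_biUnion _ fun i _ => measurableSet_toMeasurable _ _
  have hTvol : ∀ β, volume (T β) ≤ ∑ i ∈ Finset.univ.filter (fun i => b i = β),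
      volume (C.base i) := by
    intro β
    refine (measure_biUnion_finset_le _ _).trans ?_
    apply Finset.sum_le_sum
    intro i _
    rw [measure_toMeasurable, hR i]
  have hcov : ∀ x ∈ K, F1.proj x ∈ T true ∨ F2.proj x ∈ T false := by
    intro x hxK
    obtain ⟨i, hi⟩ := Set.mem_iUnion.mp (C.covers hxK)
    have hi' : (C.frame i).proj x ∈ C.base i := hi
    rw [← hx i x] at hi'
    rcases hb : b i with _ | _
    · right
      rw [hb] at hi'
      simp only [hT, Set.mem_iUnion]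
      exact ⟨i, by simp [hb], subset_toMeasurable _ _ hi'⟩
    · left
      rw [hb] at hi'
      simp only [hT, Set.mem_iUnion]
      exact ⟨i, by simp [hb], subset_toMeasurable _ _ hi'⟩
  have hmain := two_families F1 F2 rfl hK (hTm true) (hTm false) hcov
  have hs1 := shadow_pos F1 hK
  have hs2 := shadow_pos F2 hK
  have hfin : ∀ β, ∑ i ∈ Finset.univ.filter (fun i => b i = β), volume (C.base i) ≠ ∞ := fun β =>
    ENNReal.sum_ne_top.mpr fun i _ => C.finite_area i
  set A : Bool → ℝ := fun β => ∑ i ∈ Finset.univ.filter (fun i => b i = β),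
    (volume (C.base i)).toReal with hA
  have hAv : ∀ β, ∑ i ∈ Finset.univ.filter (fun i => b i = β), volume (C.base i)
      = ENNReal.ofReal (A β) := by
    intro β
    simp only [hA]
    rw [← ENNReal.toReal_sum fun i _ => C.finite_area i, ENNReal.ofReal_toReal (hfin β)]
  have hA0 : ∀ β, 0 ≤ A β := fun β => Finset.sum_nonneg fun i _ => ENNReal.toReal_nonneg
  have h1 : ENNReal.ofReal (1 / 2 * (F1.shadow K * F2.shadow K))
      ≤ ENNReal.ofReal (A true * F2.shadow K + A false * F1.shadow K) := by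
    refine hmain.trans ?_
    rw [ENNReal.ofReal_add (mul_nonneg (hA0 _) hs2.le) (mul_nonneg (hA0 _) hs1.le),
      ENNReal.ofReal_mul (hA0 _), ENNReal.ofReal_mul (hA0 _), ← hAv, ← hAv]
    gcongr
    · exact hTvol true
    · exact hTvol false
  rw [ENNReal.ofReal_le_ofReal_iff
    (add_nonneg (mul_nonneg (hA0 _) hs2.le) (mul_nonneg (hA0 _) hs1.le))] at h1
  have h2 : C.relArea = A true / F1.shadow K + A false / F2.shadow K := by
    unfold CylinderCovering.relArea
    have e1 : ∀ i, (volume (C.base i)).toReal / (C.frame i).shadow K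
        = (if b i = true then (volume (C.base i)).toReal / F1.shadow K else 0)
          + (if b i = false then (volume (C.base i)).toReal / F2.shadow K else 0) := by
      intro i
      rw [hshadow i]
      rcases hb : b i with _ | _ <;> simp
    simp_rw [e1]
    rw [Finset.sum_add_distrib, ← Finset.sum_filter, ← Finset.sum_filter, ← Finset.sum_div,
      ← Finset.sum_div]
  rw [h2, div_add_div _ _ hs1.ne' hs2.ne', le_div_iff₀ (by positivity)]
  linarith

end Vale.Agent.P243.H344
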