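import Vale.Agent.P243.H344.RegGeom
import Vale.Agent.P243.H344.Main
import Vale.Agent.P243.H344.TwoCover

/-! # The regular tetrahedron in plain coordinates, and sharpness -/

open MeasureTheory
open scoped ENNReal

namespace Vale.Agent.P243.H344

open Vale.Agent.P243.Plain

theorem regularTetrahedron_eq :
    regularTetrahedron = {x : Fin 3 → ℝ | |x 0 + x 1| ≤ 1 + x 2 ∧ |x 0 - x 1| ≤ 1 - x 2} := by
  apply Set.Subset.antisymm
  · refine convexHull_min ?_ ?_
    · rintro x (rfl | rfl | rfl | rfl) <;>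
        simp only [Set.mem_ofPred_eq, Matrix.cons_val_zero, Matrix.cons_val_one, Matrix.cons_val,
          abs_le] <;> norm_num
    · rintro v ⟨h0, h1⟩ w ⟨k0, k1⟩ a b ha hb hab
      obtain ⟨h2, h3⟩ := abs_le.mp h0
      obtain ⟨h4, h5⟩ := abs_le.mp h1
      obtain ⟨k2, k3⟩ := abs_le.mp k0
      obtain ⟨k4, k5⟩ := abs_le.mp k1
      refine ⟨abs_le.mpr ⟨?_, ?_⟩, abs_le.mpr ⟨?_, ?_⟩⟩ <;>
        simp only [Pi.add_apply, Pi.smul_apply, smul_eq_mul] <;>
        nlinarith only [ha, hb, hab, h2, k2, h3, k3, h4, k4, h5, k5]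
  · rintro x ⟨h0, h1⟩
    obtain ⟨h2, h3⟩ := abs_le.mp h0
    obtain ⟨h4, h5⟩ := abs_le.mp h1
    have h := (convex_convexHull ℝ
      ({![1, 1, 1], ![1, -1, -1], ![-1, 1, -1], ![-1, -1, 1]} : Set (Fin 3 → ℝ))).sum_mem
      (t := Finset.univ) (w := ![(1 + x 0 + x 1 + x 2) / 4, (1 + x 0 - x 1 - x 2) / 4,
        (1 - x 0 + x 1 - x 2) / 4, (1 - x 0 - x 1 + x 2) / 4])
      (z := ![![1, 1, 1], ![1, -1, -1], ![-1, 1, -1], ![-1, -1, 1]]) ?_ ?_ ?_
    · have e : (∑ i : Fin 4, ((![(1 + x 0 + x 1 + x 2) / 4, (1 + x 0 - x 1 - x 2) / 4,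
          (1 - x 0 + x 1 - x 2) / 4, (1 - x 0 - x 1 + x 2) / 4] : Fin 4 → ℝ) i) •
          ((![![1, 1, 1], ![1, -1, -1], ![-1, 1, -1], ![-1, -1, 1]] :
            Fin 4 → Fin 3 → ℝ) i)) = x := by
        ext j
        fin_cases j <;> simp [Fin.sum_univ_four] <;> ring
      rw [e] at h
      exact h
    · intro i _
      fin_cases i <;> simp <;> linarith
    · simp [Fin.sum_univ_four]
      ring
    · intro i _
      apply subset_convexHull
      fin_cases i <;> simp

theorem regularTetrahedron_eq_flat : regularTetrahedron = Bridge.flat '' regT := by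
  rw [regularTetrahedron_eq]
  ext x
  constructor
  · intro h
    exact ⟨WithLp.toLp 2 x, h, rfl⟩
  · rintro ⟨y, hy, rfl⟩
    exact hy

theorem isConvexBody_regularTetrahedron : Plain.IsConvexBody regularTetrahedron := by
  rw [regularTetrahedron_eq_flat]
  exact Bridge.isConvexBody_flat isConvexBody_regT

theorem Amin_regularTetrahedron_ge : √8 ≤ Plain.Amin regularTetrahedron := by
  rw [regularTetrahedron_eq_flat]
  exact Amin_regT_ge.trans Bridge.Amin_le

theorem sqrt8_pos : 0 < √(8 : ℝ) := Real.sqrt_pos.mpr (by norm_num)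

theorem Amin_regularTetrahedron_pos : 0 < Plain.Amin regularTetrahedron :=
  sqrt8_pos.trans_le Amin_regularTetrahedron_ge

theorem relArea_le {K : Set (Fin 3 → ℝ)} (C : Plain.CylinderCovering K) (h : 0 < Plain.Amin K) :
    C.relArea ≤ C.totalArea / Plain.Amin K := by
  unfold Plain.CylinderCovering.relArea Plain.CylinderCovering.totalArea
  rw [Finset.sum_div]
  refine Finset.sum_le_sum fun i _ => ?_
  refine div_le_div_of_nonneg_left ENNReal.toReal_nonneg h ?_
  refine ciInf_le ⟨0, ?_⟩ (C.frame i)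
  rintro _ ⟨w, rfl⟩
  exact ENNReal.toReal_nonneg

/-- The regular tetrahedron beats Bang's half-area bound by a definite amount. -/
theorem exists_covering_regularTetrahedron :
    ∃ C : Plain.CylinderCovering regularTetrahedron,
      (∀ i, IsCompact (C.base i) ∧ Convex ℝ (C.base i)) ∧
      C.totalArea ≤ (1 / 2 - 1 / 5000) * Plain.Amin regularTetrahedron ∧
      C.relArea ≤ 1 / 2 - 1 / 5000 := by
  have hA := Amin_regularTetrahedron_ge
  have hA0 := Amin_regularTetrahedron_pos
  obtain ⟨C, hC, hb⟩ := exists_covering_regT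
  obtain ⟨C', hC', _, hb'⟩ := Bridge.transfer_full C
  rw [regularTetrahedron_eq_flat] at hA hA0 ⊢
  have h1 : C'.totalArea ≤ (1 / 2 - 1 / 5000) * Plain.Amin (Bridge.flat '' regT) := by
    rw [hC']
    refine hC.trans ?_
    rw [mul_comm]
    exact mul_le_mul_of_nonneg_left hA (by norm_num)
  refine ⟨C', hb' hb, h1, (relArea_le C' hA0).trans ?_⟩
  rw [div_le_iff₀ hA0]
  exact h1

theorem c3_le : Plain.c3 ≤ 1 / 2 - 1 / 5000 := by
  obtain ⟨C, _, h, _⟩ := exists_covering_regularTetrahedron
  refine le_trans (csInf_le ⟨0, ?_⟩ ⟨_, isConvexBody_regularTetrahedron, C, rfl⟩) ?_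
  · rintro r ⟨K', _, C'', rfl⟩
    exact div_nonneg (Bridge.totalArea_nonneg C'') (Bridge.Amin_nonneg K')
  · rw [div_le_iff₀ Amin_regularTetrahedron_pos]
    exact h

/-! ## The two-cylinder covering with equality -/

theorem half_sqrt_two_sq : √2 / 2 * (√2 / 2) = (1 / 2 : ℝ) := by
  have h := Real.mul_self_sqrt (show (0 : ℝ) ≤ 2 by norm_num)
  linear_combination h / 4

/-- Frame orthogonal to `(1, -1, 0)`. -/
noncomputable def frameA : Plain.Frame where
  e := ![√2 / 2, √2 / 2, 0]
  f := ![0, 0, 1]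
  norm_e := by
    simp only [dotProduct, Fin.sum_univ_three, Matrix.cons_val_zero, Matrix.cons_val_one,
      Matrix.cons_val]
    rw [half_sqrt_two_sq]
    norm_num
  norm_f := by simp [dotProduct, Fin.sum_univ_three]
  orthogonal := by simp [dotProduct, Fin.sum_univ_three]

/-- Frame orthogonal to `(1, 1, 0)`. -/
noncomputable def frameB : Plain.Frame where
  e := ![√2 / 2, -(√2 / 2), 0]
  f := ![0, 0, 1]
  norm_e := by
    simp only [dotProduct, Fin.sum_univ_three, Matrix.cons_val_zero, Matrix.cons_val_one,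
      Matrix.cons_val]
    rw [neg_mul_neg, half_sqrt_two_sq]
    norm_num
  norm_f := by simp [dotProduct, Fin.sum_univ_three]
  orthogonal := by simp [dotProduct, Fin.sum_univ_three]

theorem frameA_proj (x : Fin 3 → ℝ) : frameA.proj x = (√2 / 2 * (x 0 + x 1), x 2) := by
  simp only [Frame.proj, frameA, dotProduct, Fin.sum_univ_three, Matrix.cons_val_zero,
    Matrix.cons_val_one, Matrix.cons_val]
  ext <;> simp <;> ring

theorem frameB_proj (x : Fin 3 → ℝ) : frameB.proj x = (√2 / 2 * (x 0 - x 1), x 2) := by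
  simp only [Frame.proj, frameB, dotProduct, Fin.sum_univ_three, Matrix.cons_val_zero,
    Matrix.cons_val_one, Matrix.cons_val]
  ext <;> simp <;> ring

/-- The triangle with apex `(0, -1)` and opposite side on the line `z = 0`. -/
noncomputable def baseA : Set (ℝ × ℝ) :=
  (fun u : ℝ × ℝ => (√2 / 2 * u.1 + (-(√2 / 2)) * u.2 + 0, 1 * u.1 + 1 * u.2 + (-1))) '' tri

/-- The triangle with apex `(0, 1)` and opposite side on the line `z = 0`. -/
noncomputable def baseB : Set (ℝ × ℝ) :=
  (fun u : ℝ × ℝ => (√2 / 2 * u.1 + (-(√2 / 2)) * u.2 + 0, (-1) * u.1 + (-1) * u.2 + 1)) '' tri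

theorem volume_baseA : volume baseA = ENNReal.ofReal (√2 / 2) := by
  unfold baseA
  rw [volume_affine_image, volume_tri, ← ENNReal.ofReal_mul (abs_nonneg _)]
  congr 1
  rw [abs_of_nonneg (by ring_nf; positivity)]
  ring

theorem volume_baseB : volume baseB = ENNReal.ofReal (√2 / 2) := by
  unfold baseB
  rw [volume_affine_image, volume_tri, ← ENNReal.ofReal_mul (abs_nonneg _)]
  congr 1
  rw [abs_of_nonpos (by ring_nf; simp)]
  ring

theorem compact_baseA : IsCompact baseA := isCompact_tri.image (by fun_prop)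

theorem compact_baseB : IsCompact baseB := isCompact_tri.image (by fun_prop)

theorem convex_affine_tri (a b c d e f : ℝ) :
    Convex ℝ ((fun u : ℝ × ℝ => (a * u.1 + b * u.2 + e, c * u.1 + d * u.2 + f)) '' tri) := by
  rintro _ ⟨s, hs, rfl⟩ _ ⟨r, hr, rfl⟩ α β hα hβ hαβ
  refine ⟨α • s + β • r, convex_tri hs hr hα hβ hαβ, ?_⟩
  have hβ' : β = 1 - α := by linarith
  subst hβ'
  ext <;> simp only [Prod.fst_add, Prod.smul_fst, Prod.snd_add, Prod.smul_snd, smul_eq_mul] <;>
    ring

theorem mem_baseA {x : Fin 3 → ℝ} (h : |x 0 + x 1| ≤ 1 + x 2) (h2 : x 2 ≤ 0) :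
    frameA.proj x ∈ baseA := by
  obtain ⟨h3, h4⟩ := abs_le.mp h
  rw [frameA_proj]
  refine ⟨((1 + x 2 + (x 0 + x 1)) / 2, (1 + x 2 - (x 0 + x 1)) / 2), ⟨?_, ?_, ?_⟩, ?_⟩
  · simp only; linarith
  · simp only; linarith
  · simp only; linarith
  · ext <;> simp only <;> ring

theorem mem_baseB {x : Fin 3 → ℝ} (h : |x 0 - x 1| ≤ 1 - x 2) (h2 : 0 ≤ x 2) :
    frameB.proj x ∈ baseB := by
  obtain ⟨h3, h4⟩ := abs_le.mp h
  rw [frameB_proj]
  refine ⟨((1 - x 2 + (x 0 - x 1)) / 2, (1 - x 2 - (x 0 - x 1)) / 2), ⟨?_, ?_, ?_⟩, ?_⟩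
  · simp only; linarith
  · simp only; linarith
  · simp only; linarith
  · ext <;> simp only <;> ring

/-- The covering of the regular tetrahedron by two cylinders. -/
noncomputable def twoCover : Plain.CylinderCovering regularTetrahedron where
  m := 2
  frame := ![frameA, frameB]
  base := ![baseA, baseB]
  measurable_base := by
    intro i
    fin_cases i
    · exact compact_baseA.measurableSet.nullMeasurableSet
    · exact compact_baseB.measurableSet.nullMeasurableSet
  finite_area := by
    intro i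
    fin_cases i
    · exact compact_baseA.measure_lt_top.ne
    · exact compact_baseB.measure_lt_top.ne
  covers := by
    rw [regularTetrahedron_eq]
    rintro x ⟨h0, h1⟩
    rcases le_total (x 2) 0 with h | h
    · exact Set.mem_iUnion.mpr ⟨0, mem_baseA h0 h⟩
    · exact Set.mem_iUnion.mpr ⟨1, mem_baseB h1 h⟩

theorem twoCover_area : twoCover.totalArea = √8 / 2 := by
  have h8 : √(8 : ℝ) = 2 * √2 := by
    rw [show (8 : ℝ) = 2 ^ 2 * 2 by norm_num, Real.sqrt_mul (by norm_num), Real.sqrt_sq (by norm_num)]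
  have h1 : twoCover.totalArea = (volume baseA).toReal + (volume baseB).toReal :=
    Fin.sum_univ_two _
  have h2 : (0 : ℝ) ≤ √2 / 2 := by positivity
  rw [h1, volume_baseA, volume_baseB, ENNReal.toReal_ofReal h2, h8]
  ring

theorem twoCover_coplanar : CoplanarAxes twoCover := by
  refine ⟨![0, 0, 1], ?_, ?_⟩
  · intro h
    have := congrFun h 2
    simp at this
  · intro i x hx
    have hx2 : x 2 = 0 := by
      fin_cases i
      · have h : frameA.proj x = 0 := hx
        rw [frameA_proj] at h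
        exact congrArg Prod.snd h
      · have h : frameB.proj x = 0 := hx
        rw [frameB_proj] at h
        exact congrArg Prod.snd h
    simp [dotProduct, Fin.sum_univ_three, hx2]

theorem twoCover_two : AtMostTwoAxes twoCover := by
  refine ⟨![1, -1, 0], ![1, 1, 0], ?_, ?_, ?_⟩
  · intro h
    have := congrFun h 0
    simp at this
  · intro h
    have := congrFun h 0
    simp at this
  · intro i
    fin_cases i
    · left
      change frameA.proj _ = 0
      rw [frameA_proj]
      simp
    · right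
      change frameB.proj _ = 0
      rw [frameB_proj]
      simp

/-- Equality is attained in both inequalities. -/
theorem exists_extremal :
    ∃ C : Plain.CylinderCovering regularTetrahedron,
      (∀ i, IsCompact (C.base i) ∧ Convex ℝ (C.base i)) ∧
      CoplanarAxes C ∧ AtMostTwoAxes C ∧
      C.totalArea = 1 / 2 * Plain.Amin regularTetrahedron ∧ C.relArea = 1 / 2 := by
  have h1 := half_area isConvexBody_regularTetrahedron twoCover twoCover_coplanar
  have h2 := rel_half isConvexBody_regularTetrahedron twoCover twoCover_two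
  have h3 : twoCover.totalArea ≤ 1 / 2 * Plain.Amin regularTetrahedron := by
    rw [twoCover_area]
    linarith [Amin_regularTetrahedron_ge]
  refine ⟨twoCover, ?_, twoCover_coplanar, twoCover_two, le_antisymm h3 h1, le_antisymm ?_ h2⟩
  · intro i
    fin_cases i
    · exact ⟨compact_baseA, convex_affine_tri _ _ _ _ _ _⟩
    · exact ⟨compact_baseB, convex_affine_tri _ _ _ _ _ _⟩
  · refine (relArea_le _ Amin_regularTetrahedron_pos).trans ?_
    rw [div_le_iff₀ Amin_regularTetrahedron_pos]
    exact h3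

end Vale.Agent.P243.H344
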