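import Mathlib.Analysis.LocallyConvex.Separation
import Mathlib.MeasureTheory.Measure.Lebesgue.Basic
import Mathlib.Tactic

/-! # Bang's plank theorem in the plane, for arbitrary (measurable or not) bases -/

open MeasureTheory
open scoped ENNReal

namespace Vale.Agent.P243.H344

/-- The sign attached to a truth value. -/
def sg (b : Bool) : ℝ := if b then 1 else -1

theorem sg_sq (b : Bool) : sg b * sg b = 1 := by
  cases b <;> simp [sg]

theorem sg_not (b : Bool) : sg (!b) = - sg b := by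
  cases b <;> simp [sg]

theorem abs_sg (b : Bool) : |sg b| = 1 := by
  cases b <;> simp [sg]

theorem sum_flip {ι : Type*} [Fintype ι] [DecidableEq ι] (σ : ι → Bool) (j : ι) (g : ι → ℝ) :
    ∑ i, sg (Function.update σ j (!σ j) i) * g i = ∑ i, sg (σ i) * g i - 2 * (sg (σ j) * g j) := by
  have h1 : ∀ i, sg (Function.update σ j (!σ j) i) * g i
      = sg (σ i) * g i - (if i = j then 2 * (sg (σ j) * g j) else 0) := by
    intro i
    by_cases h : i = j
    · subst h
      rw [Function.update_self, sg_not, if_pos rfl]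
      ring
    · rw [Function.update_of_ne h, if_neg h, sub_zero]
  simp_rw [h1, Finset.sum_sub_distrib, Finset.sum_ite_eq', Finset.mem_univ, if_true]

/-- Bang's lemma on signs. -/
theorem exists_signs {ι : Type*} [Fintype ι] [DecidableEq ι] (a α β c : ι → ℝ)
    (hu : ∀ i, α i ^ 2 + β i ^ 2 = 1) (ha : ∀ i, 0 ≤ a i) :
    ∃ σ : ι → Bool, ∀ j, a j ≤ |α j * (∑ i, sg (σ i) * (a i * α i))
      + β j * (∑ i, sg (σ i) * (a i * β i)) - c j| := by
  obtain ⟨σ, hσ⟩ := Finite.exists_max (fun σ : ι → Bool =>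
    (∑ i, sg (σ i) * (a i * α i)) ^ 2 + (∑ i, sg (σ i) * (a i * β i)) ^ 2
      - 2 * ∑ i, sg (σ i) * (a i * c i))
  refine ⟨σ, fun j => ?_⟩
  have h1 := hσ (Function.update σ j (!σ j))
  simp only [sum_flip] at h1
  set S := ∑ i, sg (σ i) * (a i * α i) with hS
  set T := ∑ i, sg (σ i) * (a i * β i) with hT
  set C := ∑ i, sg (σ i) * (a i * c i) with hC
  have h2 := sg_sq (σ j)
  have h3 := hu j
  have h4 : a j * a j ≤ a j * (sg (σ j) * (α j * S + β j * T - c j)) := by
    have e1 : (S - 2 * (sg (σ j) * (a j * α j))) ^ 2 + (T - 2 * (sg (σ j) * (a j * β j))) ^ 2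
        - 2 * (C - 2 * (sg (σ j) * (a j * c j)))
        = S ^ 2 + T ^ 2 - 2 * C - 4 * (a j * (sg (σ j) * (α j * S + β j * T - c j)))
          + 4 * (a j * a j) := by
      linear_combination (4 * (a j) ^ 2 * (α j ^ 2 + β j ^ 2)) * h2 + (4 * (a j) ^ 2) * h3
    linarith
  rcases (ha j).eq_or_lt with h0 | h0
  · rw [← h0]; exact abs_nonneg _
  · have h5 : a j ≤ sg (σ j) * (α j * S + β j * T - c j) := le_of_mul_le_mul_left h4 h0
    refine h5.trans ((le_abs_self _).trans ?_)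
    rw [abs_mul, abs_sg, one_mul]

/-- All widths of the set `D` are at least `W`. -/
def Wide (D : Set (ℝ × ℝ)) (W : ℝ) : Prop :=
  ∀ α β : ℝ, α ^ 2 + β ^ 2 = 1 → ∃ x ∈ D, ∃ y ∈ D, W ≤ α * (x.1 - y.1) + β * (x.2 - y.2)

theorem Wide.nonempty {D : Set (ℝ × ℝ)} {W : ℝ} (h : Wide D W) : D.Nonempty := by
  obtain ⟨x, hx, -⟩ := h 1 0 (by norm_num)
  exact ⟨x, hx⟩

/-- A set of large widths has a long chord in every direction. -/
theorem Wide.chord {D : Set (ℝ × ℝ)} {W : ℝ} (h : Wide D W) (hc : IsCompact D)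
    (hv : Convex ℝ D) (hW : 0 ≤ W) {α β : ℝ} (hu : α ^ 2 + β ^ 2 = 1) :
    ∃ x ∈ D, x + W • ((α, β) : ℝ × ℝ) ∈ D := by
  by_contra hcon
  push Not at hcon
  set D' : Set (ℝ × ℝ) := (fun x => x + W • ((α, β) : ℝ × ℝ)) '' D with hD'
  have hc' : IsCompact D' := hc.image (by fun_prop)
  have hv' : Convex ℝ D' := by
    have h1 := hv.translate (W • ((α, β) : ℝ × ℝ))
    have h2 : D' = (fun x => W • ((α, β) : ℝ × ℝ) + x) '' D := by
      rw [hD']
      exact Set.image_congr fun x _ => add_comm _ _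
    rw [h2]; exact h1
  have hd : Disjoint D D' := by
    rw [Set.disjoint_left]
    rintro y hy ⟨x, hx, rfl⟩
    exact hcon x hx hy
  obtain ⟨f, s, t, h1, h2, h3⟩ := geometric_hahn_banach_compact_closed hv hc hv' hc'.isClosed hd
  set A := f ((1, 0) : ℝ × ℝ) with hA
  set B := f ((0, 1) : ℝ × ℝ) with hB
  have hf : ∀ x : ℝ × ℝ, f x = A * x.1 + B * x.2 := by
    intro x
    have : x = x.1 • ((1, 0) : ℝ × ℝ) + x.2 • ((0, 1) : ℝ × ℝ) := by
      ext <;> simp
    conv_lhs => rw [this]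
    rw [map_add, map_smul, map_smul, smul_eq_mul, smul_eq_mul]
    ring
  have key : ∀ x ∈ D, ∀ y ∈ D, f x - f y < W * (A * α + B * β) := by
    intro x hx y hy
    have e1 := h1 x hx
    have e2 := h3 _ ⟨y, hy, rfl⟩
    simp only at e2
    rw [map_add, map_smul, smul_eq_mul, hf (α, β)] at e2
    simp only at e2
    linarith
  set N := Real.sqrt (A ^ 2 + B ^ 2) with hN
  have hN2 : N ^ 2 = A ^ 2 + B ^ 2 := Real.sq_sqrt (by positivity)
  have hN0 : 0 ≤ N := Real.sqrt_nonneg _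
  have hCS : A * α + B * β ≤ N := by
    apply le_of_sq_le_sq _ hN0 |> fun h => h
    nlinarith [sq_nonneg (A * β - B * α)]
  have hNpos : 0 < N := by
    rcases hN0.eq_or_lt with h0 | h0
    · exfalso
      obtain ⟨x, hx⟩ := h.nonempty
      have := key x hx x hx
      rw [sub_self] at this
      have h6 : W * (A * α + B * β) ≤ W * N := mul_le_mul_of_nonneg_left hCS hW
      rw [← h0, mul_zero] at h6
      linarith
    · exact h0
  obtain ⟨x, hx, y, hy, hxy⟩ := h (A / N) (B / N) (by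
    rw [div_pow, div_pow, ← add_div, ← hN2, div_self (by positivity)])
  have h7 := key x hx y hy
  rw [hf x, hf y] at h7
  have h8 : W * (A * α + B * β) ≤ W * N := mul_le_mul_of_nonneg_left hCS hW
  have h9 : A / N * (x.1 - y.1) + B / N * (x.2 - y.2)
      = (A * (x.1 - y.1) + B * (x.2 - y.2)) / N := by
    field_simp
  rw [h9, le_div_iff₀ hNpos] at hxy
  linarith

/-- The points all of whose two translates by `± (w / 2) u` are in `D`. -/
def shrink (D : Set (ℝ × ℝ)) (w : ℝ) (u : ℝ × ℝ) : Set (ℝ × ℝ) :=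
  {c | c + (w / 2) • u ∈ D ∧ c - (w / 2) • u ∈ D}

theorem isCompact_shrink {D : Set (ℝ × ℝ)} (hc : IsCompact D) (w : ℝ) (u : ℝ × ℝ) :
    IsCompact (shrink D w u) := by
  have h1 : shrink D w u = (Homeomorph.addRight ((w / 2) • u)) ⁻¹' D
      ∩ (Homeomorph.addRight (-((w / 2) • u))) ⁻¹' D := by
    ext c
    simp [shrink, sub_eq_add_neg]
  rw [h1]
  exact ((Homeomorph.isCompact_preimage _).mpr hc).inter
    ((Homeomorph.isCompact_preimage _).mpr hc)

theorem convex_shrink {D : Set (ℝ × ℝ)} (hv : Convex ℝ D) (w : ℝ) (u : ℝ × ℝ) :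
    Convex ℝ (shrink D w u) := by
  intro x hx y hy a b ha hb hab
  constructor
  · have : a • x + b • y + (w / 2) • u
        = a • (x + (w / 2) • u) + b • (y + (w / 2) • u) := by
      rw [smul_add, smul_add, add_add_add_comm, ← add_smul, hab, one_smul]
    rw [this]
    exact hv hx.1 hy.1 ha hb hab
  · have : a • x + b • y - (w / 2) • u
        = a • (x - (w / 2) • u) + b • (y - (w / 2) • u) := by
      rw [smul_sub, smul_sub, sub_add_sub_comm, ← add_smul, hab, one_smul]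
    rw [this]
    exact hv hx.2 hy.2 ha hb hab

theorem Wide.toShrink {D : Set (ℝ × ℝ)} {W : ℝ} (h : Wide D W) (hc : IsCompact D)
    (hv : Convex ℝ D) {w : ℝ} (hw : 0 ≤ w) (hwW : w ≤ W) {α β : ℝ} (hu : α ^ 2 + β ^ 2 = 1) :
    Wide (shrink D w (α, β)) (W - w) := by
  have hW : 0 ≤ W := hw.trans hwW
  obtain ⟨p, hp, hp'⟩ := h.chord hc hv hW hu
  set t := w / W with ht
  have htW : t * W = w := by
    rcases hW.eq_or_lt with h0 | h0
    · have : w = 0 := le_antisymm (by rw [h0]; exact hwW) hw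
      rw [← h0, mul_zero, this]
    · rw [ht]; field_simp
  have ht0 : 0 ≤ t := div_nonneg hw hW
  have ht1 : t ≤ 1 := div_le_one_of_le₀ hwW hW
  have key : ∀ y ∈ D, (1 - t) • y + t • p + (w / 2) • ((α, β) : ℝ × ℝ) ∈ shrink D w (α, β) := by
    intro y hy
    constructor
    · have e : (1 - t) • y + t • p + (w / 2) • ((α, β) : ℝ × ℝ) + (w / 2) • ((α, β) : ℝ × ℝ)
          = (1 - t) • y + t • (p + W • ((α, β) : ℝ × ℝ)) := by
        rw [smul_add, smul_smul, htW, add_assoc ((1 - t) • y + t • p), ← add_smul,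
          add_halves]
        abel
      rw [e]
      exact hv hy hp' (by linarith) ht0 (by ring)
    · have e : (1 - t) • y + t • p + (w / 2) • ((α, β) : ℝ × ℝ) - (w / 2) • ((α, β) : ℝ × ℝ)
          = (1 - t) • y + t • p := by abel
      rw [e]
      exact hv hy hp (by linarith) ht0 (by ring)
  intro a b hab
  obtain ⟨x, hx, y, hy, hxy⟩ := h a b hab
  refine ⟨_, key x hx, _, key y hy, ?_⟩
  have h5 := mul_le_mul_of_nonneg_left hxy (by linarith : 0 ≤ 1 - t)
  simp only [Prod.fst_add, Prod.snd_add, Prod.smul_fst, Prod.smul_snd, smul_eq_mul]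
  nlinarith [h5, htW]

/-- The intersection step in the proof of Bang's theorem. -/
theorem exists_center {ι : Type*} [DecidableEq ι] (s : Finset ι) (w α β : ι → ℝ)
    (hu : ∀ i, α i ^ 2 + β i ^ 2 = 1) (hw : ∀ i, 0 ≤ w i) :
    ∀ (D : Set (ℝ × ℝ)) (W : ℝ), IsCompact D → Convex ℝ D → Wide D W → ∑ i ∈ s, w i ≤ W →
      ∃ x : ℝ × ℝ, ∀ σ : ι → Bool, (x.1 + ∑ i ∈ s, sg (σ i) * (w i / 2 * α i),
        x.2 + ∑ i ∈ s, sg (σ i) * (w i / 2 * β i)) ∈ D := by
  induction s using Finset.induction_on with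
  | empty =>
    intro D W _ _ h _
    obtain ⟨x, hx⟩ := h.nonempty
    exact ⟨x, fun σ => by simpa using hx⟩
  | insert j s hj ih =>
    intro D W hc hv h hs
    rw [Finset.sum_insert hj] at hs
    have h0 : 0 ≤ ∑ i ∈ s, w i := Finset.sum_nonneg fun i _ => hw i
    obtain ⟨x, hx⟩ := ih (shrink D (w j) (α j, β j)) (W - w j) (isCompact_shrink hc _ _)
      (convex_shrink hv _ _) (h.toShrink hc hv (hw j) (by linarith) (hu j)) (by linarith)
    refine ⟨x, fun σ => ?_⟩
    obtain ⟨h1, h2⟩ := hx σ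
    rw [Finset.sum_insert hj, Finset.sum_insert hj]
    rcases hb : σ j with _ | _
    · have e : (x.1 + (sg false * (w j / 2 * α j) + ∑ i ∈ s, sg (σ i) * (w i / 2 * α i)),
          x.2 + (sg false * (w j / 2 * β j) + ∑ i ∈ s, sg (σ i) * (w i / 2 * β i)))
          = (x.1 + ∑ i ∈ s, sg (σ i) * (w i / 2 * α i),
            x.2 + ∑ i ∈ s, sg (σ i) * (w i / 2 * β i)) - (w j / 2) • ((α j, β j) : ℝ × ℝ) := by
        ext <;> simp [sg] <;> ring
      rw [e]; exact h2
    · have e : (x.1 + (sg true * (w j / 2 * α j) + ∑ i ∈ s, sg (σ i) * (w i / 2 * α i)),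
          x.2 + (sg true * (w j / 2 * β j) + ∑ i ∈ s, sg (σ i) * (w i / 2 * β i)))
          = (x.1 + ∑ i ∈ s, sg (σ i) * (w i / 2 * α i),
            x.2 + ∑ i ∈ s, sg (σ i) * (w i / 2 * β i)) + (w j / 2) • ((α j, β j) : ℝ × ℝ) := by
        ext <;> simp [sg] <;> ring
      rw [e]; exact h1

/-- Bang's plank theorem in the plane. -/
theorem bang {ι : Type*} [Fintype ι] {D : Set (ℝ × ℝ)} {W : ℝ} (hc : IsCompact D)
    (hv : Convex ℝ D) (h : Wide D W) (α β m w : ι → ℝ) (hu : ∀ i, α i ^ 2 + β i ^ 2 = 1)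
    (hw : ∀ i, 0 ≤ w i) (hcov : ∀ x ∈ D, ∃ i, |α i * x.1 + β i * x.2 - m i| ≤ w i / 2) :
    W ≤ ∑ i, w i := by
  classical
  by_contra hlt
  push Not at hlt
  obtain ⟨x1, hx1⟩ := h.nonempty
  obtain ⟨i0, -⟩ := hcov x1 hx1
  have hn : 0 < (Fintype.card ι : ℝ) := by
    exact_mod_cast Fintype.card_pos_iff.mpr ⟨i0⟩
  set δ := (W - ∑ i, w i) / Fintype.card ι with hδ
  have hδ0 : 0 < δ := div_pos (by linarith) hn
  have hsum : ∑ i, (w i + δ) ≤ W := by
    rw [Finset.sum_add_distrib, Finset.sum_const, Finset.card_univ, nsmul_eq_mul, hδ]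
    field_simp
    linarith
  have hw' : ∀ i, 0 ≤ w i + δ := fun i => by linarith [hw i]
  obtain ⟨x, hx⟩ := exists_center Finset.univ (fun i => w i + δ) α β hu hw' D W hc hv h hsum
  obtain ⟨σ, hσ⟩ := exists_signs (fun i => (w i + δ) / 2) α β
    (fun i => m i - (α i * x.1 + β i * x.2)) hu (fun i => by linarith [hw' i])
  obtain ⟨i, hi⟩ := hcov _ (hx σ)
  have h1 := hσ i
  simp only at hi h1
  have e : α i * (x.1 + ∑ i, sg (σ i) * ((w i + δ) / 2 * α i))
      + β i * (x.2 + ∑ i, sg (σ i) * ((w i + δ) / 2 * β i)) - m i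
      = α i * (∑ i, sg (σ i) * ((w i + δ) / 2 * α i))
        + β i * (∑ i, sg (σ i) * ((w i + δ) / 2 * β i)) - (m i - (α i * x.1 + β i * x.2)) := by
    ring
  rw [e] at hi
  linarith

end Vale.Agent.P243.H344
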