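import Vale.Agent.P243.H344.Plank

/-! # Bang's plank theorem in the plane for arbitrary bases -/

open MeasureTheory
open scoped ENNReal

namespace Vale.Agent.P243.H344

theorem disjoint_cells {h : ℝ} (hh : 0 < h) {k l : ℤ} (hkl : k ≠ l) :
    Disjoint (Set.Ico ((k : ℝ) * h) ((k + 1) * h)) (Set.Ico ((l : ℝ) * h) ((l + 1) * h)) := by
  rw [Set.disjoint_left]
  rintro x ⟨h1, h2⟩ ⟨h3, h4⟩
  rcases lt_or_gt_of_ne hkl with h5 | h5
  · have h6 : (k : ℝ) + 1 ≤ l := by exact_mod_cast h5
    have h7 := mul_le_mul_of_nonneg_right h6 hh.le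
    linarith
  · have h6 : (l : ℝ) + 1 ≤ k := by exact_mod_cast h5
    have h7 := mul_le_mul_of_nonneg_right h6 hh.le
    linarith

theorem sum_cells_le {h : ℝ} (hh : 0 < h) (O : Set ℝ) (T : Finset ℤ)
    (hT : ∀ k ∈ T, Set.Icc ((k : ℝ) * h) ((k + 1) * h) ⊆ O) :
    ∑ _k ∈ T, ENNReal.ofReal h ≤ volume O := by
  have h1 : ∀ k : ℤ, volume (Set.Ico ((k : ℝ) * h) ((k + 1) * h)) = ENNReal.ofReal h := by
    intro k
    rw [Real.volume_Ico]
    congr 1
    ring
  calc ∑ _k ∈ T, ENNReal.ofReal h
      = ∑ k ∈ T, volume (Set.Ico ((k : ℝ) * h) ((k + 1) * h)) :=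
        Finset.sum_congr rfl fun k _ => (h1 k).symm
    _ = volume (⋃ k ∈ T, Set.Ico ((k : ℝ) * h) ((k + 1) * h)) := by
        rw [measure_biUnion_finset]
        · intro k _ l _ hkl
          exact disjoint_cells hh hkl
        · intro k _
          exact measurableSet_Ico
    _ ≤ volume O := by
        apply measure_mono
        intro x hx
        simp only [Set.mem_iUnion] at hx
        obtain ⟨k, hk, hxk⟩ := hx
        exact hT k hk (Set.Ico_subset_Icc_self hxk)

theorem abs_le_one_of {a b : ℝ} (h : a ^ 2 + b ^ 2 = 1) : |a| ≤ 1 := by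
  rw [← sq_le_one_iff_abs_le_one]
  nlinarith [sq_nonneg b]

/-- Bang's theorem for planks over open bases. -/
theorem bang_open {ι : Type*} [Fintype ι] {D : Set (ℝ × ℝ)} {W : ℝ} (hc : IsCompact D)
    (hv : Convex ℝ D) (h : Wide D W) (α β : ι → ℝ) (hu : ∀ i, α i ^ 2 + β i ^ 2 = 1)
    (O : ι → Set ℝ) (hO : ∀ i, IsOpen (O i))
    (hcov : ∀ x ∈ D, ∃ i, α i * x.1 + β i * x.2 ∈ O i) :
    ENNReal.ofReal W ≤ ∑ i, volume (O i) := by
  classical
  have hopen : ∀ i, IsOpen {x : ℝ × ℝ | α i * x.1 + β i * x.2 ∈ O i} := fun i =>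
    (hO i).preimage (by fun_prop)
  obtain ⟨δ, hδ, hball⟩ := lebesgue_number_lemma_of_metric hc hopen (by
    intro x hx
    obtain ⟨i, hi⟩ := hcov x hx
    exact Set.mem_iUnion.mpr ⟨i, hi⟩)
  set η := δ / 2 with hη
  have hη0 : 0 < η := by positivity
  obtain ⟨R, hR⟩ := hc.isBounded.exists_norm_le
  obtain ⟨x1, hx1⟩ := h.nonempty
  have hR0 : 0 ≤ R := (norm_nonneg _).trans (hR x1 hx1)
  set M : ℤ := ⌈2 * R / η⌉ + 1 with hM
  have hα : ∀ i, |α i| ≤ 1 := fun i => abs_le_one_of (hu i)
  have hβ : ∀ i, |β i| ≤ 1 := fun i => abs_le_one_of (by rw [add_comm]; exact hu i)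
  have hr : ∀ i, ∀ x ∈ D, |α i * x.1 + β i * x.2| ≤ 2 * R := by
    intro i x hx
    have h1 : |x.1| ≤ R := (norm_fst_le x).trans (hR x hx)
    have h2 : |x.2| ≤ R := (norm_snd_le x).trans (hR x hx)
    calc |α i * x.1 + β i * x.2| ≤ |α i * x.1| + |β i * x.2| := abs_add_le _ _
      _ = |α i| * |x.1| + |β i| * |x.2| := by rw [abs_mul, abs_mul]
      _ ≤ 1 * R + 1 * R := by
        gcongr
        · exact hα i
        · exact hβ i
      _ = 2 * R := by ring
  have hmain := bang hc hv h (ι := ι × (Finset.Icc (-M) M)) (fun p => α p.1) (fun p => β p.1)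
    (fun p => ((p.2 : ℤ) + 1 / 2) * η)
    (fun p => if Set.Icc (((p.2 : ℤ) : ℝ) * η) (((p.2 : ℤ) + 1) * η) ⊆ O p.1 then η else 0)
    (fun p => hu p.1) (fun p => by split_ifs <;> linarith) (by
      intro x hx
      obtain ⟨i, hi⟩ := hball x hx
      set r := α i * x.1 + β i * x.2 with hrdef
      set k : ℤ := ⌊r / η⌋ with hk
      have k1 : (k : ℝ) * η ≤ r := by
        have := Int.floor_le (r / η)
        rw [le_div_iff₀ hη0] at this
        exact this
      have k2 : r < (k + 1) * η := by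
        have := Int.lt_floor_add_one (r / η)
        rw [div_lt_iff₀ hη0] at this
        exact this
      have hin : ∀ s : ℝ, |s| < δ → r + s ∈ O i := by
        intro s hs
        have h1 : x + s • ((α i, β i) : ℝ × ℝ) ∈ Metric.ball x δ := by
          rw [Metric.mem_ball, dist_eq_norm, add_sub_cancel_left]
          refine lt_of_le_of_lt ?_ hs
          rw [norm_smul, Real.norm_eq_abs]
          have : ‖((α i, β i) : ℝ × ℝ)‖ ≤ 1 := by
            rw [Prod.norm_def]
            exact max_le (hα i) (hβ i)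
          nlinarith [abs_nonneg s]
        have h2 := hi h1
        simp only [Set.mem_ofPred_eq, Prod.fst_add, Prod.snd_add, Prod.smul_fst, Prod.smul_snd,
          smul_eq_mul] at h2
        have h3 : α i * (x.1 + s * α i) + β i * (x.2 + s * β i) = r + s := by
          linear_combination s * hu i
        rw [h3] at h2
        exact h2
      have hsub : Set.Icc ((k : ℝ) * η) ((k + 1) * η) ⊆ O i := by
        intro y hy
        have : y = r + (y - r) := by ring
        rw [this]
        apply hin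
        rw [abs_lt]
        have h1 := hy.1
        have h2 := hy.2
        constructor <;> [nlinarith; nlinarith]
      have hkM : k ∈ Finset.Icc (-M) M := by
        rw [Finset.mem_Icc]
        have h1 := abs_le.mp (hr i x hx)
        have h2 : r / η ≤ 2 * R / η := div_le_div_of_nonneg_right h1.2 hη0.le
        have h3 : -(2 * R / η) ≤ r / η := by
          rw [← neg_div]
          exact div_le_div_of_nonneg_right h1.1 hη0.le
        have h4 := Int.le_ceil (2 * R / η)
        constructor
        · rw [hk, Int.le_floor]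
          push_cast [hM]
          linarith
        · have h5 : (k : ℝ) ≤ M := by
            push_cast [hM]
            have := Int.floor_le (r / η)
            linarith
          exact_mod_cast h5
      refine ⟨(i, ⟨k, hkM⟩), ?_⟩
      simp only [if_pos hsub]
      rw [← hrdef, abs_le]
      constructor <;> nlinarith)
  calc ENNReal.ofReal W
      ≤ ENNReal.ofReal (∑ p : ι × (Finset.Icc (-M) M),
        if Set.Icc (((p.2 : ℤ) : ℝ) * η) (((p.2 : ℤ) + 1) * η) ⊆ O p.1 then η else 0) :=
        ENNReal.ofReal_le_ofReal hmain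
    _ = ∑ p : ι × (Finset.Icc (-M) M), ENNReal.ofReal
        (if Set.Icc (((p.2 : ℤ) : ℝ) * η) (((p.2 : ℤ) + 1) * η) ⊆ O p.1 then η else 0) := by
        apply ENNReal.ofReal_sum_of_nonneg
        intro p _
        split_ifs <;> linarith
    _ = ∑ i, ∑ k : Finset.Icc (-M) M, ENNReal.ofReal
        (if Set.Icc (((k : ℤ) : ℝ) * η) (((k : ℤ) + 1) * η) ⊆ O i then η else 0) := by
        rw [Fintype.sum_prod_type]
    _ ≤ ∑ i, volume (O i) := by
        apply Finset.sum_le_sum
        intro i _
        rw [Finset.sum_coe_sort (Finset.Icc (-M) M) (fun k : ℤ => ENNReal.ofReal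
          (if Set.Icc ((k : ℝ) * η) ((k + 1) * η) ⊆ O i then η else 0))]
        have h1 : ∀ k : ℤ, ENNReal.ofReal
            (if Set.Icc ((k : ℝ) * η) ((k + 1) * η) ⊆ O i then η else 0)
            = if Set.Icc ((k : ℝ) * η) ((k + 1) * η) ⊆ O i then ENNReal.ofReal η else 0 := by
          intro k
          split_ifs <;> simp
        simp_rw [h1]
        rw [← Finset.sum_filter]
        apply sum_cells_le hη0
        intro k hk
        exact (Finset.mem_filter.mp hk).2

/-- Bang's theorem for planks over arbitrary bases, in terms of outer measure. -/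
theorem bang_meas {ι : Type*} [Fintype ι] {D : Set (ℝ × ℝ)} {W : ℝ} (hc : IsCompact D)
    (hv : Convex ℝ D) (h : Wide D W) (α β : ι → ℝ) (hu : ∀ i, α i ^ 2 + β i ^ 2 = 1)
    (P : ι → Set ℝ) (hcov : ∀ x ∈ D, ∃ i, α i * x.1 + β i * x.2 ∈ P i) :
    ENNReal.ofReal W ≤ ∑ i, volume (P i) := by
  apply ENNReal.le_of_forall_pos_le_add
  intro ε hε _
  have hn : (0 : ℝ≥0∞) < (ε : ℝ≥0∞) / ((Fintype.card ι : ℝ≥0∞) + 1) := by
    apply ENNReal.div_pos
    · exact_mod_cast hε.ne'
    · simp
  choose O hPO hO hle using fun i => (P i).exists_isOpen_le_add volume hn.ne'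
  have h1 := bang_open hc hv h α β hu O hO (by
    intro x hx
    obtain ⟨i, hi⟩ := hcov x hx
    exact ⟨i, hPO i hi⟩)
  refine h1.trans ?_
  calc ∑ i, volume (O i) ≤ ∑ i, (volume (P i) + (ε : ℝ≥0∞) / ((Fintype.card ι : ℝ≥0∞) + 1)) :=
        Finset.sum_le_sum fun i _ => hle i
    _ = ∑ i, volume (P i) + Fintype.card ι * ((ε : ℝ≥0∞) / ((Fintype.card ι : ℝ≥0∞) + 1)) := by
        rw [Finset.sum_add_distrib, Finset.sum_const, Finset.card_univ, nsmul_eq_mul]
    _ ≤ ∑ i, volume (P i) + ε := by
        gcongr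
        rw [← mul_div_assoc]
        apply ENNReal.div_le_of_le_mul
        rw [mul_comm]
        gcongr
        exact le_self_add

end Vale.Agent.P243.H344
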