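import Vale.Agent.P243.Bdl.B1

/-! # A covering of the regular tetrahedron: the algebraic core -/

namespace Vale.Agent.P243.H344

/-- The slope data of a cell. -/
noncomputable def tA (a c : ℝ) : ℝ := 9 / 100 * (1 + a * c)
noncomputable def tB (a c : ℝ) : ℝ := 9 / 100 * (a + c)

/-- The height profile. -/
noncomputable def tau (v : ℝ) : ℝ := 1 / 2 + 201 / 25000 * v ^ 2 + 17 / 2000 * v ^ 4

/-- Height of a cell. -/
noncomputable def tT (δ a : ℝ) : ℝ := tau a + δ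

/-- The core polynomial inequality in the squares. -/
theorem poly_core {s r : ℝ} (hs : 0 ≤ s) (hs1 : s ≤ 1) (hr : 0 ≤ r) (hr1 : r ≤ 1) :
    0 ≤ (201 / 25000 - 81 / 10000) * (s + r) + (17 / 2000 - 81 / 10000) * (s ^ 2 + r ^ 2)
      + 81 / 10000 * ((1 + r) * (1 - s) * (201 / 25000 * s + 17 / 2000 * s ^ 2)
        + (1 + s) * (1 - r) * (201 / 25000 * r + 17 / 2000 * r ^ 2))
      - s * r * (201 / 25000 + 17 / 2000 * (s + r)) ^ 2 := by
  have h1 : 0 ≤ s * r := mul_nonneg hs hr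
  have h2 : 0 ≤ s * r * ((s + r) * (2 - (s + r))) :=
    mul_nonneg h1 (mul_nonneg (by linarith) (by linarith))
  have h3 : 0 ≤ s ^ 2 * (1 - s) := mul_nonneg (sq_nonneg s) (by linarith)
  have h4 : 0 ≤ r ^ 2 * (1 - r) := mul_nonneg (sq_nonneg r) (by linarith)
  have h5 : 0 ≤ s * r * (2 - s - r) := mul_nonneg h1 (by linarith)
  have h6 : 0 ≤ s * r * (1 - s ^ 2) := mul_nonneg h1 (by nlinarith)
  have h7 : 0 ≤ s * r * (1 - r ^ 2) := mul_nonneg h1 (by nlinarith)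
  nlinarith [sq_nonneg (s - r)]

/-- The exact inequality of the two height profiles. -/
theorem tau_core {v w : ℝ} (hv : v ^ 2 ≤ 1) (hw : w ^ 2 ≤ 1) :
    1 + 9 / 100 * (1 + v ^ 2) * (9 / 100 * (1 + w ^ 2))
      ≤ (1 + 9 / 100 * (1 + v ^ 2) * (9 / 100 * (1 + w ^ 2))
          - 9 / 50 * v * (9 / 100 * (1 + w ^ 2)) * v + 9 / 50 * w * v) * tau v
        + (1 + 9 / 100 * (1 + v ^ 2) * (9 / 100 * (1 + w ^ 2)) - 9 / 50 * v * w
          - 9 / 100 * (1 + v ^ 2) * (9 / 50 * w) * w) * tau w := by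
  have h1 := poly_core (sq_nonneg v) hv (sq_nonneg w) hw
  have h2 := sq_nonneg (9 / 100 * (v ^ 2 - w ^ 2)
    + v * w * (201 / 25000 + 17 / 2000 * (v ^ 2 + w ^ 2)))
  unfold tau
  nlinarith [h1, h2]

theorem mul_abs_le {x y a b : ℝ} (hx : |x| ≤ a) (hy : |y| ≤ b) : |x * y| ≤ a * b := by
  rw [abs_mul]
  exact mul_le_mul hx hy (abs_nonneg _) ((abs_nonneg _).trans hx)

theorem tau_bounds {v : ℝ} (hv : v ^ 2 ≤ 1) : 1 / 2 ≤ tau v ∧ tau v ≤ 13 / 25 := by
  have h4 : v ^ 4 ≤ 1 := by nlinarith [sq_nonneg v]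
  have h2 := sq_nonneg v
  have h0 : 0 ≤ v ^ 4 := by positivity
  unfold tau
  constructor <;> linarith

/-- The height profile changes slowly. -/
theorem tau_step {δ a v : ℝ} (ha : -1 ≤ a) (h1 : a ≤ v) (h2 : v ≤ a + δ) (hv : v ≤ 1) :
    tau v ≤ tau a + δ / 10 := by
  have h0 : 0 ≤ v - a := by linarith
  have e2 : v ^ 2 - a ^ 2 ≤ 2 * δ := by
    have : v ^ 2 - a ^ 2 = (v - a) * (v + a) := by ring
    nlinarith
  have hb : v ^ 2 + a ^ 2 ≤ 2 := by nlinarith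
  have hb0 : 0 ≤ v ^ 2 + a ^ 2 := by positivity
  have hδ : 0 ≤ δ := by linarith
  have e4 : v ^ 4 - a ^ 4 ≤ 4 * δ := by
    have : v ^ 4 - a ^ 4 = (v ^ 2 - a ^ 2) * (v ^ 2 + a ^ 2) := by ring
    rw [this]
    by_cases hs : 0 ≤ v ^ 2 - a ^ 2
    · nlinarith
    · have : (v ^ 2 - a ^ 2) * (v ^ 2 + a ^ 2) ≤ 0 :=
        mul_nonpos_of_nonpos_of_nonneg (by linarith) hb0
      linarith
  unfold tau
  linarith

/-- Deviation of the slope data of a cell from the value at an inner point. -/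
theorem tA_dev {δ a v : ℝ} (hδ1 : δ ≤ 1 / 1000) (ha : -1 ≤ a) (hc : a + δ ≤ 1)
    (h1 : a ≤ v) (h2 : v ≤ a + δ) :
    |tA a (a + δ) - 9 / 100 * (1 + v ^ 2)| ≤ δ / 10 ∧ |tB a (a + δ) - 9 / 50 * v| ≤ δ / 10 := by
  have hδ : 0 ≤ δ := by linarith
  have hv : -1 ≤ v := by linarith
  have hv' : v ≤ 1 := by linarith
  unfold tA tB
  constructor
  · -- a (a + δ) - v² = v (y - x) - x y with x = v - a, y = a + δ - v
    have e : a * (a + δ) - v ^ 2 = v * ((a + δ - v) - (v - a)) - (v - a) * (a + δ - v) := by ring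
    have k1 : |v * ((a + δ - v) - (v - a))| ≤ 1 * δ :=
      mul_abs_le (abs_le.mpr ⟨hv, hv'⟩) (abs_le.mpr ⟨by linarith, by linarith⟩)
    have k2 : |(v - a) * (a + δ - v)| ≤ δ * (1 / 1000) :=
      mul_abs_le (abs_le.mpr ⟨by linarith, by linarith⟩) (abs_le.mpr ⟨by linarith, by linarith⟩)
    obtain ⟨k11, k12⟩ := abs_le.mp k1
    obtain ⟨k21, k22⟩ := abs_le.mp k2
    rw [abs_le]
    constructor <;> nlinarith
  · rw [abs_le]
    constructor <;> linarith

/-- The discrete version of `tau_core`. -/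
theorem disc_core {δ v w A A' B B' S S' : ℝ} (hδ : 0 ≤ δ) (hδ1 : δ ≤ 1 / 1000)
    (hv : v ^ 2 ≤ 1) (hw : w ^ 2 ≤ 1)
    (hA : |A - 9 / 100 * (1 + v ^ 2)| ≤ δ / 10) (hB : |B - 9 / 50 * v| ≤ δ / 10)
    (hA' : |A' - 9 / 100 * (1 + w ^ 2)| ≤ δ / 10) (hB' : |B' - 9 / 50 * w| ≤ δ / 10)
    (hS : tau v + 9 / 10 * δ ≤ S) (hS' : tau w + 9 / 10 * δ ≤ S') :
    0 ≤ 1 + A * A' - B * A' * v + B' * v ∧ 0 ≤ 1 + A * A' - B * w - A * B' * w ∧
    1 + A * A' ≤ (1 + A * A' - B * A' * v + B' * v) * S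
      + (1 + A * A' - B * w - A * B' * w) * S' := by
  have hv1 : |v| ≤ 1 := (sq_le_one_iff_abs_le_one v).mp hv
  have hw1 : |w| ≤ 1 := (sq_le_one_iff_abs_le_one w).mp hw
  set A0 := 9 / 100 * (1 + v ^ 2) with hA0
  set A0' := 9 / 100 * (1 + w ^ 2) with hA0'
  have hv0 := sq_nonneg v
  have hw0 := sq_nonneg w
  have bA0 : |A0| ≤ 9 / 50 := abs_le.mpr ⟨by rw [hA0]; linarith only [hv0], by
    rw [hA0]; linarith only [hv]⟩
  have bA0' : |A0'| ≤ 9 / 50 := abs_le.mpr ⟨by rw [hA0']; linarith only [hw0], by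
    rw [hA0']; linarith only [hw]⟩
  set x := A - A0 with hx
  set x' := A' - A0' with hx'
  set y := B - 9 / 50 * v with hy
  set y' := B' - 9 / 50 * w with hy'
  have eA : A = A0 + x := by rw [hx]; ring
  have eA' : A' = A0' + x' := by rw [hx']; ring
  have eB : B = 9 / 50 * v + y := by rw [hy]; ring
  have eB' : B' = 9 / 50 * w + y' := by rw [hy']; ring
  have hd2 : δ / 10 * (δ / 10) ≤ δ / 100000 := by nlinarith
  -- small products
  have p1 := mul_abs_le bA0 hA'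
  have p2 := mul_abs_le bA0' hA
  have p3 := mul_abs_le hA hA'
  have p4 := mul_abs_le (mul_abs_le hv1 hv1) hA'
  have p5 := mul_abs_le (mul_abs_le bA0' hv1) hB
  have p6 := mul_abs_le (mul_abs_le hA' hv1) hB
  have p7 := mul_abs_le hv1 hB'
  have q4 := mul_abs_le (mul_abs_le hw1 hw1) hA
  have q5 := mul_abs_le (mul_abs_le bA0 hw1) hB'
  have q6 := mul_abs_le (mul_abs_le hA hw1) hB'
  have q7 := mul_abs_le hw1 hB
  rw [abs_le] at p1 p2 p3 p4 p5 p6 p7 q4 q5 q6 q7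
  obtain ⟨p11, p12⟩ := p1
  obtain ⟨p21, p22⟩ := p2
  obtain ⟨p31, p32⟩ := p3
  obtain ⟨p41, p42⟩ := p4
  obtain ⟨p51, p52⟩ := p5
  obtain ⟨p61, p62⟩ := p6
  obtain ⟨p71, p72⟩ := p7
  obtain ⟨q41, q42⟩ := q4
  obtain ⟨q51, q52⟩ := q5
  obtain ⟨q61, q62⟩ := q6
  obtain ⟨q71, q72⟩ := q7
  set D0 := 1 + A0 * A0' with hD0
  set C1 := D0 - 9 / 50 * v * A0' * v + 9 / 50 * w * v with hC1
  set C2 := D0 - 9 / 50 * v * w - A0 * (9 / 50 * w) * w with hC2
  have eD : 1 + A * A' = D0 + (A0 * x' + A0' * x + x * x') := by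
    rw [eA, eA', hD0]; ring
  have hD : 1 + A * A' ≤ D0 + δ / 20 ∧ D0 - δ / 20 ≤ 1 + A * A' := by
    rw [eD]
    constructor
    · linarith only [p12, p22, p32, hd2, hδ]
    · linarith only [p11, p21, p31, hd2, hδ]
  have h1 : C1 - δ / 4 ≤ 1 + A * A' - B * A' * v + B' * v := by
    have e : 1 + A * A' - B * A' * v + B' * v = C1 + (1 + A * A' - D0)
        - 9 / 50 * (v * v * x') - A0' * v * y - x' * v * y + v * y' := by
      rw [hC1, eA, eA', eB, eB', hD0]; ring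
    rw [e]
    linarith only [hD.2, p42, p52, p62, p71, hd2, hδ, hδ1]
  have h2 : C2 - δ / 4 ≤ 1 + A * A' - B * w - A * B' * w := by
    have e : 1 + A * A' - B * w - A * B' * w = C2 + (1 + A * A' - D0)
        - 9 / 50 * (w * w * x) - A0 * w * y' - x * w * y' - w * y := by
      rw [hC2, eA, eA', eB, eB', hD0]; ring
    rw [e]
    linarith only [hD.2, q42, q52, q62, q72, hd2, hδ, hδ1]
  have hA0n : 0 ≤ A0 := by rw [hA0]; positivity
  have hA0n' : 0 ≤ A0' := by rw [hA0']; positivity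
  have r1 := mul_abs_le hv1 hw1
  have r2 := mul_abs_le (mul_abs_le hv1 hv1) bA0'
  have r3 := mul_abs_le (mul_abs_le hw1 hw1) bA0
  rw [abs_le] at r1 r2 r3
  have g1 : 3 / 4 ≤ C1 := by
    have e : C1 = 1 + A0 * A0' - 9 / 50 * (v * v * A0') + 9 / 50 * (v * w) := by
      rw [hC1, hD0]; ring
    rw [e]
    linarith only [mul_nonneg hA0n hA0n', r1.1, r2.2]
  have g2 : 3 / 4 ≤ C2 := by
    have e : C2 = 1 + A0 * A0' - 9 / 50 * (v * w) - 9 / 50 * (w * w * A0) := by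
      rw [hC2, hD0]; ring
    rw [e]
    linarith only [mul_nonneg hA0n hA0n', r1.2, r3.2]
  have hcore := tau_core hv hw
  have hcore' : D0 ≤ C1 * tau v + C2 * tau w := hcore
  obtain ⟨tv1, tv2⟩ := tau_bounds hv
  obtain ⟨tw1, tw2⟩ := tau_bounds hw
  set E1 := 1 + A * A' - B * A' * v + B' * v with hE1
  set E2 := 1 + A * A' - B * w - A * B' * w with hE2
  have hE1n : 0 ≤ E1 := by linarith only [h1, g1, hδ1]
  have hE2n : 0 ≤ E2 := by linarith only [h2, g2, hδ1]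
  refine ⟨hE1n, hE2n, ?_⟩
  have s1 : E1 * (tau v + 9 / 10 * δ) ≤ E1 * S := mul_le_mul_of_nonneg_left hS hE1n
  have s2 : E2 * (tau w + 9 / 10 * δ) ≤ E2 * S' := mul_le_mul_of_nonneg_left hS' hE2n
  have t1 : (C1 - δ / 4) * (tau v + 9 / 10 * δ) ≤ E1 * (tau v + 9 / 10 * δ) :=
    mul_le_mul_of_nonneg_right h1 (by linarith only [tv1, hδ])
  have t2 : (C2 - δ / 4) * (tau w + 9 / 10 * δ) ≤ E2 * (tau w + 9 / 10 * δ) :=
    mul_le_mul_of_nonneg_right h2 (by linarith only [tw1, hδ])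
  have hδδ : 0 ≤ δ * (1 / 1000 - δ) := mul_nonneg hδ (sub_nonneg.mpr hδ1)
  have u1 : C1 * tau v + δ / 4 ≤ (C1 - δ / 4) * (tau v + 9 / 10 * δ) := by
    have w1 := mul_nonneg hδ (sub_nonneg.mpr g1)
    have w2 := mul_nonneg hδ (sub_nonneg.mpr tv2)
    have e : (C1 - δ / 4) * (tau v + 9 / 10 * δ) = C1 * tau v + 9 / 10 * (δ * (C1 - 3 / 4))
        + 1 / 4 * (δ * (13 / 25 - tau v)) + 9 / 40 * (δ * (1 / 1000 - δ))
        + (27 / 40 - 13 / 100 - 9 / 40000) * δ := by ring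
    rw [e]
    linarith only [w1, w2, hδδ, hδ]
  have u2 : C2 * tau w + δ / 4 ≤ (C2 - δ / 4) * (tau w + 9 / 10 * δ) := by
    have w1 := mul_nonneg hδ (sub_nonneg.mpr g2)
    have w2 := mul_nonneg hδ (sub_nonneg.mpr tw2)
    have e : (C2 - δ / 4) * (tau w + 9 / 10 * δ) = C2 * tau w + 9 / 10 * (δ * (C2 - 3 / 4))
        + 1 / 4 * (δ * (13 / 25 - tau w)) + 9 / 40 * (δ * (1 / 1000 - δ))
        + (27 / 40 - 13 / 100 - 9 / 40000) * δ := by ring
    rw [e]
    linarith only [w1, w2, hδδ, hδ]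
  linarith only [hD.1, hcore', s1, s2, t1, t2, u1, u2, hδ]

/-- The heart of the covering: the two families cannot both miss a point. -/
theorem cover_key {δ X Y t a a' : ℝ} (hδ : 0 ≤ δ) (hδ1 : δ ≤ 1 / 1000)
    (ha : -1 ≤ a) (hc : a + δ ≤ 1) (ha' : -1 ≤ a') (hc' : a' + δ ≤ 1)
    (h1 : a * (t - tB a (a + δ) * X) ≤ Y - tA a (a + δ) * X)
    (h2 : Y - tA a (a + δ) * X ≤ (a + δ) * (t - tB a (a + δ) * X))
    (h1' : a' * (1 - t - tB a' (a' + δ) * Y) ≤ -X - tA a' (a' + δ) * Y)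
    (h2' : -X - tA a' (a' + δ) * Y ≤ (a' + δ) * (1 - t - tB a' (a' + δ) * Y)) :
    t - tB a (a + δ) * X ≤ tT δ a ∨ 1 - t - tB a' (a' + δ) * Y ≤ tT δ a' := by
  by_contra hcon
  push Not at hcon
  obtain ⟨k, k'⟩ := hcon
  have ha2 : a ^ 2 ≤ 1 := by nlinarith
  have ha2' : a' ^ 2 ≤ 1 := by nlinarith
  have hT0 : 0 < t - tB a (a + δ) * X := by
    refine lt_of_le_of_lt ?_ k
    unfold tT
    linarith [(tau_bounds ha2).1]
  have hT0' : 0 < 1 - t - tB a' (a' + δ) * Y := by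
    refine lt_of_le_of_lt ?_ k'
    unfold tT
    linarith [(tau_bounds ha2').1]
  set A := tA a (a + δ) with hA
  set A' := tA a' (a' + δ) with hA'
  set B := tB a (a + δ) with hB
  set B' := tB a' (a' + δ) with hB'
  set T := t - B * X with hT
  set T' := 1 - t - B' * Y with hT'
  obtain ⟨v, hv⟩ : ∃ v, v * T = Y - A * X := ⟨(Y - A * X) / T, div_mul_cancel₀ _ hT0.ne'⟩
  obtain ⟨w, hw⟩ : ∃ w, w * T' = -X - A' * Y := ⟨(-X - A' * Y) / T', div_mul_cancel₀ _ hT0'.ne'⟩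
  rw [← hv] at h1 h2
  rw [← hw] at h1' h2'
  have va : a ≤ v := le_of_mul_le_mul_right h1 hT0
  have vc : v ≤ a + δ := le_of_mul_le_mul_right h2 hT0
  have wa : a' ≤ w := le_of_mul_le_mul_right h1' hT0'
  have wc : w ≤ a' + δ := le_of_mul_le_mul_right h2' hT0'
  have hv2 : v ^ 2 ≤ 1 := by nlinarith only [ha, hc, va, vc]
  have hw2 : w ^ 2 ≤ 1 := by nlinarith only [ha', hc', wa, wc]
  obtain ⟨dA, dB⟩ := tA_dev hδ1 ha hc va vc
  obtain ⟨dA', dB'⟩ := tA_dev hδ1 ha' hc' wa wc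
  have st := tau_step ha va vc (by linarith only [vc, hc])
  have st' := tau_step ha' wa wc (by linarith only [wc, hc'])
  obtain ⟨n1, n2, hd⟩ := disc_core hδ hδ1 hv2 hw2 dA dB dA' dB' (S := tT δ a) (S' := tT δ a')
    (by unfold tT; linarith only [st, hδ]) (by unfold tT; linarith only [st', hδ])
  have hsum : (1 + A * A' - B * A' * v + B' * v) * T + (1 + A * A' - B * w - A * B' * w) * T'
      = 1 + A * A' := by
    have eX : X = -(w * T') - A' * Y := by linarith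
    have eY : Y = v * T + A * X := by linarith
    have eS : T + T' = 1 - B * X - B' * Y := by rw [hT, hT']; ring
    have eX' : (1 + A * A') * X = -(w * T') - A' * (v * T) := by
      linear_combination eX - A' * eY
    have eY' : (1 + A * A') * Y = v * T - A * (w * T') := by
      linear_combination eY + A * eX
    linear_combination (1 + A * A') * eS - B * eX' - B' * eY'
  have m1 : (1 + A * A' - B * A' * v + B' * v) * tT δ a
      ≤ (1 + A * A' - B * A' * v + B' * v) * T := mul_le_mul_of_nonneg_left k.le n1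
  have m2 : (1 + A * A' - B * w - A * B' * w) * tT δ a'
      ≤ (1 + A * A' - B * w - A * B' * w) * T' := mul_le_mul_of_nonneg_left k'.le n2
  -- strictness: both coefficients cannot vanish
  have hAA : 0 < 1 + A * A' := by
    have : 0 ≤ A := by
      rw [hA]; unfold tA
      have : -1 ≤ a * (a + δ) := by nlinarith only [ha, hc, hδ]
      linarith only [this]
    have : 0 ≤ A' := by
      rw [hA']; unfold tA
      have : -1 ≤ a' * (a' + δ) := by nlinarith only [ha', hc', hδ]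
      linarith only [this]
    positivity
  rcases n1.eq_or_lt with z1 | z1
  · rcases n2.eq_or_lt with z2 | z2
    · rw [← z1, ← z2] at hsum
      linarith only [hsum, hAA]
    · have := mul_lt_mul_of_pos_left k' z2
      linarith only [this, m1, hd, hsum]
  · have := mul_lt_mul_of_pos_left k z1
    linarith only [this, m2, hd, hsum]

end Vale.Agent.P243.H344
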