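import Vale.Agent.P243.H344.RegCore

/-! # A covering of the regular tetrahedron: the total area -/

namespace Vale.Agent.P243.H344

open Vale.Agent.P243

/-- Squared length of the axis direction of a cell. -/
noncomputable def rL (a c : ℝ) : ℝ := 1 + tA a c ^ 2 + 2 * tB a c ^ 2

/-- Normalized area of the base of one cylinder. -/
noncomputable def rcell (δ a : ℝ) : ℝ := δ * (tT δ a ^ 2 * (√(rL a (a + δ)))⁻¹)

/-- Polynomial upper bound of the integrand. -/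
noncomputable def Fp (a : ℝ) : ℝ :=
  tau a ^ 2 * (1 - 81 / 10000 * (1 + 10 * a ^ 2 + a ^ 4) / 2
    + 3 * (81 / 10000 * (1 + 10 * a ^ 2 + a ^ 4)) ^ 2 / 8)

/-- Its antiderivative. -/
noncomputable def Hp (v : ℝ) : ℝ :=
  796779683 / 3200000000 * v - 39886908717 / 20000000000000 * (v ^ 3 / 3)
    + 3911698715910383 / 500000000000000000 * (v ^ 5 / 5)
    - 9588993664413 / 100000000000000000 * (v ^ 7 / 7)
    + 126809957260139 / 2000000000000000000 * (v ^ 9 / 9)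
    + 131114332017 / 100000000000000000 * (v ^ 11 / 11)
    + 166683947391 / 1000000000000000000 * (v ^ 13 / 13)
    + 389152593 / 10000000000000000 * (v ^ 15 / 15)
    + 5688387 / 3200000000000000 * (v ^ 17 / 17)

theorem Fp_eq (a : ℝ) : Fp a = 796779683 / 3200000000 - 39886908717 / 20000000000000 * a ^ 2
    + 3911698715910383 / 500000000000000000 * a ^ 4
    - 9588993664413 / 100000000000000000 * a ^ 6
    + 126809957260139 / 2000000000000000000 * a ^ 8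
    + 131114332017 / 100000000000000000 * a ^ 10
    + 166683947391 / 1000000000000000000 * a ^ 12
    + 389152593 / 10000000000000000 * a ^ 14
    + 5688387 / 3200000000000000 * a ^ 16 := by
  unfold Fp tau
  ring

theorem pow_step {x a : ℝ} (hx : |x| ≤ 1) (ha : |a| ≤ 1) (n : ℕ) :
    |x ^ (n + 1) - a ^ (n + 1) - (n + 1) * a ^ n * (x - a)| ≤ ((n : ℝ) + 1) ^ 2 * (x - a) ^ 2 := by
  induction n with
  | zero =>
    simp only [zero_add, pow_one, Nat.cast_zero, pow_zero, mul_one, one_mul, sub_self, abs_zero]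
    positivity
  | succ n ih =>
    have e : x ^ (n + 1 + 1) - a ^ (n + 1 + 1) - ((n + 1 : ℕ) + 1) * a ^ (n + 1) * (x - a)
        = x * (x ^ (n + 1) - a ^ (n + 1) - (n + 1) * a ^ n * (x - a))
          + (n + 1) * a ^ n * (x - a) ^ 2 := by
      push_cast
      ring
    rw [e]
    have h1 : |x * (x ^ (n + 1) - a ^ (n + 1) - (n + 1) * a ^ n * (x - a))|
        ≤ 1 * (((n : ℝ) + 1) ^ 2 * (x - a) ^ 2) := mul_abs_le hx ih
    have h2 : |((n : ℝ) + 1) * a ^ n * (x - a) ^ 2| ≤ ((n : ℝ) + 1) * (x - a) ^ 2 := by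
      rw [abs_mul, abs_mul, abs_pow, abs_of_nonneg (by positivity : (0 : ℝ) ≤ (n : ℝ) + 1),
        abs_of_nonneg (sq_nonneg (x - a))]
      have : |a| ^ n ≤ 1 := pow_le_one₀ (abs_nonneg a) ha
      have h3 : ((n : ℝ) + 1) * |a| ^ n ≤ ((n : ℝ) + 1) * 1 :=
        mul_le_mul_of_nonneg_left this (by positivity)
      have h4 := mul_le_mul_of_nonneg_right h3 (sq_nonneg (x - a))
      linarith
    refine (abs_add_le _ _).trans ((add_le_add h1 h2).trans ?_)
    push_cast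
    have h5 : 0 ≤ (n : ℝ) * (x - a) ^ 2 := by positivity
    have h6 := sq_nonneg (x - a)
    nlinarith

theorem Hp_step {δ a : ℝ} (hδ : 0 ≤ δ) (ha : -1 ≤ a) (hc : a + δ ≤ 1) :
    δ * Fp a ≤ Hp (a + δ) - Hp a + δ ^ 2 := by
  have hx1 : |a + δ| ≤ 1 := abs_le.mpr ⟨by linarith, hc⟩
  have ha1 : |a| ≤ 1 := abs_le.mpr ⟨ha, by linarith⟩
  have key : ∀ n : ℕ, |(a + δ) ^ (n + 1) - a ^ (n + 1) - (n + 1) * a ^ n * δ|
      ≤ ((n : ℝ) + 1) ^ 2 * δ ^ 2 := by
    intro n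
    have := pow_step hx1 ha1 n
    rwa [add_sub_cancel_left] at this
  have k2 := abs_le.mp (key 2)
  have k4 := abs_le.mp (key 4)
  have k6 := abs_le.mp (key 6)
  have k8 := abs_le.mp (key 8)
  have k10 := abs_le.mp (key 10)
  have k12 := abs_le.mp (key 12)
  have k14 := abs_le.mp (key 14)
  have k16 := abs_le.mp (key 16)
  norm_num at k2 k4 k6 k8 k10 k12 k14 k16
  have hd := sq_nonneg δ
  rw [Fp_eq]
  unfold Hp
  linarith only [k2.1, k2.2, k4.1, k4.2, k6.1, k6.2, k8.1, k10.1, k12.1, k14.1, k16.1, hd]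

/-- Estimate of the cost of one cell. -/
theorem rcell_le {δ a : ℝ} (hδ : 0 ≤ δ) (hδ1 : δ ≤ 1 / 1000) (ha : -1 ≤ a)
    (hc : a + δ ≤ 1) : rcell δ a ≤ δ * (Fp a + 2 * δ) := by
  have ha1 : a ≤ 1 := by linarith only [hδ, hc]
  have ha2 : a ^ 2 ≤ 1 := by nlinarith only [ha, ha1]
  have ha4 : a ^ 4 ≤ 1 := by nlinarith only [ha2, sq_nonneg a]
  have ha40 : 0 ≤ a ^ 4 := by positivity
  have ha20 : 0 ≤ a ^ 2 := sq_nonneg a
  set d : ℝ := tA a (a + δ) ^ 2 + 2 * tB a (a + δ) ^ 2 with hd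
  set u : ℝ := 81 / 10000 * (1 + 10 * a ^ 2 + a ^ 4) with hu
  have hd0 : 0 ≤ d := by positivity
  have hrL : rL a (a + δ) = 1 + d := by
    unfold rL
    rw [hd]
    ring
  have hu0 : 0 ≤ u := by positivity
  have hu1 : u ≤ 1 / 10 := by rw [hu]; linarith only [ha2, ha4]
  have hdd : d = u + 81 / 10000 * (δ * (2 * (a * (5 + a ^ 2))) + δ ^ 2 * (a ^ 2 + 2)) := by
    rw [hd, hu]
    unfold tA tB
    ring
  have hb : -6 ≤ a * (5 + a ^ 2) ∧ a * (5 + a ^ 2) ≤ 6 := by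
    constructor <;> nlinarith only [ha, ha1, ha2, ha20]
  have hδa := mul_le_mul_of_nonneg_left hb.1 hδ
  have hδb := mul_le_mul_of_nonneg_left hb.2 hδ
  have hδ2 : δ ^ 2 ≤ δ / 1000 := by nlinarith only [hδ, hδ1]
  have hδ20 : 0 ≤ δ ^ 2 := sq_nonneg δ
  have hq : δ ^ 2 * (a ^ 2 + 2) ≤ δ / 1000 * 3 := by
    apply mul_le_mul hδ2 (by linarith only [ha2]) (by positivity) (by positivity)
  have hq0 : 0 ≤ δ ^ 2 * (a ^ 2 + 2) := by positivity
  have hd1 : u - δ / 10 ≤ d := by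
    rw [hdd]
    linarith only [hδa, hq0, hδ]
  have hd2 : d ≤ 1 / 5 := by
    rw [hdd]
    linarith only [hδb, hq, hu1, hδ1, hδ]
  have hφ : 1 - d / 2 + 3 * d ^ 2 / 8 ≤ 1 - u / 2 + 3 * u ^ 2 / 8 + δ / 20 := by
    have h1 : 0 ≤ (d - u + δ / 10) * (1 / 2 - 3 / 8 * (d + u)) :=
      mul_nonneg (by linarith only [hd1]) (by linarith only [hd2, hu1])
    have h2 : 0 ≤ δ * (d + u) := mul_nonneg hδ (by linarith only [hd0, hu0])
    nlinarith only [h1, h2]
  obtain ⟨t1, t2⟩ := tau_bounds ha2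
  have hτ : tT δ a ^ 2 ≤ tau a ^ 2 + 21 / 20 * δ := by
    unfold tT
    nlinarith only [mul_nonneg hδ (sub_nonneg.mpr t2), hδ2, hδ]
  have hτ2 : tau a ^ 2 ≤ 1 := by nlinarith only [t1, t2]
  have hφu : 1 - u / 2 + 3 * u ^ 2 / 8 ≤ 1 := by nlinarith only [hu0, hu1]
  have hφu0 : 0 ≤ 1 - u / 2 + 3 * u ^ 2 / 8 := by nlinarith only [hu0, hu1]
  have h1 : tT δ a ^ 2 * (√(rL a (a + δ)))⁻¹ ≤ Fp a + 2 * δ := by
    rw [hrL]
    have e1 : tT δ a ^ 2 * (√(1 + d))⁻¹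
        ≤ tT δ a ^ 2 * (1 - u / 2 + 3 * u ^ 2 / 8 + δ / 20) :=
      mul_le_mul_of_nonneg_left ((inv_sqrt_le hd0).trans hφ) (sq_nonneg _)
    have e2 : tT δ a ^ 2 * (1 - u / 2 + 3 * u ^ 2 / 8 + δ / 20)
        ≤ (tau a ^ 2 + 21 / 20 * δ) * (1 - u / 2 + 3 * u ^ 2 / 8 + δ / 20) :=
      mul_le_mul_of_nonneg_right hτ (by linarith only [hφu0, hδ])
    have e3 : Fp a = tau a ^ 2 * (1 - u / 2 + 3 * u ^ 2 / 8) := by
      unfold Fp
      rw [hu]
    refine e1.trans (e2.trans ?_)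
    rw [e3]
    have m1 := mul_le_mul_of_nonneg_left hφu hδ
    have m2 := mul_le_mul_of_nonneg_left hτ2 hδ
    nlinarith only [m1, m2, hδ2, hδ]
  unfold rcell
  exact mul_le_mul_of_nonneg_left h1 hδ

/-- Total cost of one family. -/
theorem sum_rcell_le {N : ℕ} (hN : N = 10000000) :
    ∑ j ∈ Finset.range N, rcell (2 / N) (grid N j) ≤ 1 / 2 - 1 / 5000 := by
  have hN0 : 0 < N := by omega
  have hNr : (N : ℝ) = 10000000 := by rw [hN]; norm_num
  have hδ : (0 : ℝ) ≤ 2 / N := by positivity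
  have h1 : ∀ j ∈ Finset.range N, rcell (2 / N) (grid N j)
      ≤ (Hp (grid N (j + 1)) - Hp (grid N j)) + 3 * (2 / N : ℝ) ^ 2 := by
    intro j hj
    have hj' : j < N := Finset.mem_range.mp hj
    have hc : grid N j + 2 / N ≤ 1 := by rw [← grid_succ]; exact grid_le hN0 hj'
    have h2 := rcell_le (δ := 2 / N) (a := grid N j) hδ (by rw [hNr]; norm_num)
      (grid_ge N j) hc
    have h3 := Hp_step hδ (grid_ge N j) hc
    rw [← grid_succ] at h3
    linarith only [h2, h3]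
  refine (Finset.sum_le_sum h1).trans ?_
  rw [Finset.sum_add_distrib, Finset.sum_range_sub (fun j => Hp (grid N j)), grid_zero,
    grid_last hN0, Finset.sum_const, Finset.card_range, nsmul_eq_mul, hNr]
  unfold Hp
  norm_num

end Vale.Agent.P243.H344
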