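import Vale.Agent.P243.H344.RegCost

/-! # A covering of the regular tetrahedron: geometry -/

open MeasureTheory
open scoped ENNReal RealInnerProductSpace

namespace Vale.Agent.P243.H344

open Vale.Agent.P243

/-- The regular tetrahedron with vertices `(1,1,1)`, `(-1,-1,1)`, `(1,-1,-1)`, `(-1,1,-1)`. -/
def regT : Set E3 := {v : E3 | |v 0 + v 1| ≤ 1 + v 2 ∧ |v 0 - v 1| ≤ 1 - v 2}

theorem mem_regT_iff (v : E3) :
    v ∈ regT ↔ |v 0 + v 1| ≤ 1 + v 2 ∧ |v 0 - v 1| ≤ 1 - v 2 := Iff.rfl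

theorem isConvexBody_regT : IsConvexBody regT := by
  have hcont : ∀ i : Fin 3, Continuous fun v : E3 => v i := fun i => by fun_prop
  refine ⟨?_, ?_, ?_⟩
  · refine Metric.isCompact_of_isClosed_isBounded ?_ ?_
    · exact (isClosed_le ((hcont 0).add (hcont 1)).abs (continuous_const.add (hcont 2))).inter
        (isClosed_le ((hcont 0).sub (hcont 1)).abs (continuous_const.sub (hcont 2)))
    · refine (Metric.isBounded_closedBall (x := (0 : E3)) (r := 3)).subset ?_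
      rintro v ⟨h0, h1⟩
      rw [mem_closedBall_zero_iff, EuclideanSpace.norm_eq]
      rw [Real.sqrt_le_left (by norm_num)]
      simp only [Fin.sum_univ_three, Real.norm_eq_abs, sq_abs]
      obtain ⟨h2, h3⟩ := abs_le.mp h0
      obtain ⟨h4, h5⟩ := abs_le.mp h1
      nlinarith only [h2, h3, h4, h5]
  · rintro v ⟨h0, h1⟩ w ⟨k0, k1⟩ a b ha hb hab
    obtain ⟨h2, h3⟩ := abs_le.mp h0
    obtain ⟨h4, h5⟩ := abs_le.mp h1
    obtain ⟨k2, k3⟩ := abs_le.mp k0
    obtain ⟨k4, k5⟩ := abs_le.mp k1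
    refine ⟨abs_le.mpr ⟨?_, ?_⟩, abs_le.mpr ⟨?_, ?_⟩⟩ <;>
      simp only [PiLp.add_apply, PiLp.smul_apply, smul_eq_mul] <;>
      nlinarith only [ha, hb, hab, h2, k2, h3, k3, h4, k4, h5, k5]
  · refine ⟨0, ?_⟩
    rw [mem_interior]
    refine ⟨{v : E3 | |v 0 + v 1| < 1 + v 2 ∧ |v 0 - v 1| < 1 - v 2}, ?_, ?_, ?_⟩
    · rintro v ⟨h0, h1⟩
      exact ⟨h0.le, h1.le⟩
    · exact (isOpen_lt ((hcont 0).add (hcont 1)).abs (continuous_const.add (hcont 2))).inter
        (isOpen_lt ((hcont 0).sub (hcont 1)).abs (continuous_const.sub (hcont 2)))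
    · constructor <;> simp

theorem isCompact_regT : IsCompact regT := isConvexBody_regT.1

theorem mem_regT_A {s : ℝ × ℝ} (hs : s ∈ tri) :
    vec 1 (-1) (-1) + (s.1 • vec (-2) 2 0 + s.2 • vec 0 2 2) ∈ regT := by
  obtain ⟨h1, h2, h3⟩ := hs
  rw [mem_regT_iff]
  simp only [PiLp.add_apply, PiLp.smul_apply, smul_eq_mul, vec_zero, vec_one, vec_two, abs_le]
  refine ⟨⟨?_, ?_⟩, ?_, ?_⟩ <;> linarith

theorem mem_regT_B {s : ℝ × ℝ} (hs : s ∈ tri) :
    vec 1 (-1) (-1) + (s.1 • vec (-2) 2 0 + s.2 • vec (-2) 0 2) ∈ regT := by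
  obtain ⟨h1, h2, h3⟩ := hs
  rw [mem_regT_iff]
  simp only [PiLp.add_apply, PiLp.smul_apply, smul_eq_mul, vec_zero, vec_one, vec_two, abs_le]
  refine ⟨⟨?_, ?_⟩, ?_, ?_⟩ <;> linarith

theorem mem_regT_C {s : ℝ × ℝ} (hs : s ∈ tri) :
    vec 1 (-1) (-1) + (s.1 • vec 0 2 2 + s.2 • vec (-2) 2 0) ∈ regT := by
  obtain ⟨h1, h2, h3⟩ := hs
  rw [mem_regT_iff]
  simp only [PiLp.add_apply, PiLp.smul_apply, smul_eq_mul, vec_zero, vec_one, vec_two, abs_le]
  refine ⟨⟨?_, ?_⟩, ?_, ?_⟩ <;> linarith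

theorem mem_regT_D {s : ℝ × ℝ} (hs : s ∈ tri) :
    vec 1 (-1) (-1) + (s.1 • vec 0 2 2 + s.2 • vec (-2) 0 2) ∈ regT := by
  obtain ⟨h1, h2, h3⟩ := hs
  rw [mem_regT_iff]
  simp only [PiLp.add_apply, PiLp.smul_apply, smul_eq_mul, vec_zero, vec_one, vec_two, abs_le]
  refine ⟨⟨?_, ?_⟩, ?_, ?_⟩ <;> linarith

theorem mem_regT_E {s : ℝ × ℝ} (hs : s ∈ tri) :
    vec 1 (-1) (-1) + (s.1 • vec (-2) 0 2 + s.2 • vec (-2) 2 0) ∈ regT := by
  obtain ⟨h1, h2, h3⟩ := hs
  rw [mem_regT_iff]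
  simp only [PiLp.add_apply, PiLp.smul_apply, smul_eq_mul, vec_zero, vec_one, vec_two, abs_le]
  refine ⟨⟨?_, ?_⟩, ?_, ?_⟩ <;> linarith

theorem mem_regT_F {s : ℝ × ℝ} (hs : s ∈ tri) :
    vec 1 (-1) (-1) + (s.1 • vec (-2) 0 2 + s.2 • vec 0 2 2) ∈ regT := by
  obtain ⟨h1, h2, h3⟩ := hs
  rw [mem_regT_iff]
  simp only [PiLp.add_apply, PiLp.smul_apply, smul_eq_mul, vec_zero, vec_one, vec_two, abs_le]
  refine ⟨⟨?_, ?_⟩, ?_, ?_⟩ <;> linarith

theorem mem_regT_G {s : ℝ × ℝ} (hs : s ∈ tri) :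
    vec (-1) 1 (-1) + (s.1 • vec 2 0 2 + s.2 • vec 0 (-2) 2) ∈ regT := by
  obtain ⟨h1, h2, h3⟩ := hs
  rw [mem_regT_iff]
  simp only [PiLp.add_apply, PiLp.smul_apply, smul_eq_mul, vec_zero, vec_one, vec_two, abs_le]
  refine ⟨⟨?_, ?_⟩, ?_, ?_⟩ <;> linarith

/-- Every shadow of the regular tetrahedron has area at least `√8`. -/
theorem shadow_regT_ge {u : E3} (hu : ‖u‖ = 1) : √8 ≤ shadowArea regT u := by
  have huu : |u 0| * |u 0| + |u 1| * |u 1| + |u 2| * |u 2| = 1 := by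
    rw [abs_mul_abs_self, abs_mul_abs_self, abs_mul_abs_self, ← inner_E3,
      real_inner_self_eq_norm_sq, hu]
    norm_num
  have fA := shadow_ge_tri isCompact_regT hu _ _ _ (fun s hs => mem_regT_A hs)
  have fB := shadow_ge_tri isCompact_regT hu _ _ _ (fun s hs => mem_regT_B hs)
  have fD := shadow_ge_tri isCompact_regT hu _ _ _ (fun s hs => mem_regT_D hs)
  have fG := shadow_ge_tri isCompact_regT hu _ _ _ (fun s hs => mem_regT_G hs)
  have p1 := shadow_ge_pair isCompact_regT hu _ _ _ _ (fun s hs => mem_regT_A hs)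
    (fun s hs => mem_regT_B hs)
  have p2 := shadow_ge_pair isCompact_regT hu _ _ _ _ (fun s hs => mem_regT_C hs)
    (fun s hs => mem_regT_D hs)
  have p3 := shadow_ge_pair isCompact_regT hu _ _ _ _ (fun s hs => mem_regT_E hs)
    (fun s hs => mem_regT_F hs)
  set M := shadowArea regT u with hM
  simp only [det3, vec_zero, vec_one, vec_two] at fA fB fD fG p1 p2 p3
  rw [div_le_iff₀ (by norm_num), abs_le] at fA fB fD fG p1 p2 p3
  obtain ⟨a1, a2⟩ := fA
  obtain ⟨b1, b2⟩ := fB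
  obtain ⟨d1, d2⟩ := fD
  obtain ⟨g1, g2⟩ := fG
  obtain ⟨p11, p12⟩ := p1
  obtain ⟨p21, p22⟩ := p2
  obtain ⟨p31, p32⟩ := p3
  have q2 : 4 * |u 2| ≤ M := by
    rcases abs_cases (u 2) with h | h <;> rw [h.1] <;> linarith only [p11, p12]
  have q0 : 4 * |u 0| ≤ M := by
    rcases abs_cases (u 0) with h | h <;> rw [h.1] <;> linarith only [p21, p22]
  have q1 : 4 * |u 1| ≤ M := by
    rcases abs_cases (u 1) with h | h <;> rw [h.1] <;> linarith only [p31, p32]
  have qs : 2 * (|u 0| + |u 1| + |u 2|) ≤ M := by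
    rcases abs_cases (u 0) with h0 | h0 <;> rcases abs_cases (u 1) with h1 | h1 <;>
      rcases abs_cases (u 2) with h2 | h2 <;> rw [h0.1, h1.1, h2.1] <;>
      linarith only [a1, a2, b1, b2, d1, d2, g1, g2]
  have n0 := abs_nonneg (u 0)
  have n1 := abs_nonneg (u 1)
  have n2 := abs_nonneg (u 2)
  have hM0 : 0 ≤ M := by linarith only [q0, n0]
  rw [Real.sqrt_le_left hM0]
  have e0 := mul_le_mul_of_nonneg_left q0 n0
  have e1 := mul_le_mul_of_nonneg_left q1 n1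
  have e2 := mul_le_mul_of_nonneg_left q2 n2
  have e3 := mul_le_mul_of_nonneg_right qs hM0
  nlinarith only [e0, e1, e2, e3, huu]

theorem Amin_regT_ge : √8 ≤ Amin regT := by
  have : Nonempty (Metric.sphere (0 : E3) 1) :=
    ⟨⟨vec 1 0 0, by
      rw [mem_sphere_zero_iff_norm, EuclideanSpace.norm_eq]
      simp [Fin.sum_univ_three]⟩⟩
  refine le_ciInf fun u => shadow_regT_ge ?_
  exact mem_sphere_zero_iff_norm.mp u.2

/-- Axis directions: `false` for the lower family, `true` for the upper family. -/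
noncomputable def rDir (b : Bool) (a c : ℝ) : E3 :=
  if b then vec (1 - tA a c) (1 + tA a c) (-(2 * tB a c))
  else vec (1 + tA a c) (tA a c - 1) (2 * tB a c)

theorem norm_rDir (b : Bool) (a c : ℝ) : ‖rDir b a c‖ = √(2 * rL a c) := by
  cases b <;>
  · simp only [rDir, Bool.false_eq_true, if_true, if_false]
    rw [EuclideanSpace.norm_eq]
    congr 1
    simp only [Fin.sum_univ_three, vec_zero, vec_one, vec_two, Real.norm_eq_abs, sq_abs, rL]
    ring

theorem rL_pos (a c : ℝ) : 0 < rL a c := by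
  unfold rL
  positivity

theorem rDir_ne_zero (b : Bool) (a c : ℝ) : rDir b a c ≠ 0 := by
  rw [← norm_pos_iff, norm_rDir]
  exact Real.sqrt_pos.mpr (by linarith [rL_pos a c])

noncomputable def roPt (b : Bool) : E3 := if b then vec 0 0 1 else vec 0 0 (-1)

noncomputable def rcPt (b : Bool) (τ w : ℝ) : E3 :=
  if b then vec (-(w * τ)) (w * τ) (-(2 * τ)) else vec (w * τ) (w * τ) (2 * τ)

/-- Area of one base. -/
theorem rarea_base (b : Bool) {δ a : ℝ} (hδ : 0 ≤ δ) :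
    (volume (cylBase (‖rDir b a (a + δ)‖⁻¹ • rDir b a (a + δ)) (roPt b)
      (rcPt b (tT δ a) a) (rcPt b (tT δ a) (a + δ)))).toReal = √8 / 2 * rcell δ a := by
  rw [volume_cylBase (norm_inv_smul (rDir_ne_zero b a (a + δ))),
    ENNReal.toReal_ofReal (by positivity), det3_smul_right, norm_rDir]
  have h1 : |det3 (rcPt b (tT δ a) a) (rcPt b (tT δ a) (a + δ)) (rDir b a (a + δ))|
      = 4 * (δ * tT δ a ^ 2) := by
    have h2 : 0 ≤ 4 * (δ * tT δ a ^ 2) := by positivity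
    rw [← abs_of_nonneg h2]
    cases b
    · rw [← abs_neg]
      congr 1
      simp only [det3, rcPt, rDir, Bool.false_eq_true, if_false, vec_zero, vec_one, vec_two]
      ring
    · congr 1
      simp only [det3, rcPt, rDir, if_true, vec_zero, vec_one, vec_two]
      ring
  rw [abs_mul, h1, abs_of_nonneg (inv_nonneg.mpr (Real.sqrt_nonneg _))]
  unfold rcell
  rw [Real.sqrt_mul (by norm_num), mul_inv]
  have h8 : √(8 : ℝ) = 2 * √2 := by
    rw [show (8 : ℝ) = 2 ^ 2 * 2 by norm_num, Real.sqrt_mul (by norm_num), Real.sqrt_sq (by norm_num)]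
  have h22 : √(2 : ℝ) * √2 = 2 := Real.mul_self_sqrt (by norm_num)
  have h20 : √(2 : ℝ) ≠ 0 := by positivity
  have h2i : (√(2 : ℝ))⁻¹ = √2 / 2 := by
    rw [inv_eq_one_div, div_eq_div_iff h20 (by norm_num), one_mul, h22]
  rw [h8, h2i]
  ring

/-- A point in a cell of one family below its height lies in the corresponding cylinder. -/
theorem rmem_lower {δ a : ℝ} {x : E3} (hδ : 0 < δ)
    (hτ : 0 < tT δ a)
    (h1 : a * ((1 + x 2) / 2 - tB a (a + δ) * ((x 0 - x 1) / 2))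
      ≤ (x 0 + x 1) / 2 - tA a (a + δ) * ((x 0 - x 1) / 2))
    (h2 : (x 0 + x 1) / 2 - tA a (a + δ) * ((x 0 - x 1) / 2)
      ≤ (a + δ) * ((1 + x 2) / 2 - tB a (a + δ) * ((x 0 - x 1) / 2)))
    (h3 : (1 + x 2) / 2 - tB a (a + δ) * ((x 0 - x 1) / 2) ≤ tT δ a) :
    x ∈ cylinder (‖rDir false a (a + δ)‖⁻¹ • rDir false a (a + δ))
      (cylBase (‖rDir false a (a + δ)‖⁻¹ • rDir false a (a + δ)) (roPt false)
        (rcPt false (tT δ a) a) (rcPt false (tT δ a) (a + δ))) := by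
  set T := (1 + x 2) / 2 - tB a (a + δ) * ((x 0 - x 1) / 2) with hT
  set Y := (x 0 + x 1) / 2 - tA a (a + δ) * ((x 0 - x 1) / 2) with hY
  set τ := tT δ a
  have hτδ : 0 < τ * δ := mul_pos hτ hδ
  refine mem_cylinder_of (rDir_ne_zero _ _ _) (s := ((a + δ) * T - Y) / (τ * δ))
    (r := (Y - a * T) / (τ * δ)) (k := (x 0 - x 1) / 2) ⟨?_, ?_, ?_⟩ ?_
  · exact div_nonneg (by linarith only [h2]) hτδ.le
  · exact div_nonneg (by linarith only [h1]) hτδ.le
  · simp only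
    rw [← add_div, div_le_one hτδ]
    nlinarith only [hδ, h3]
  · have e1 : ((a + δ) * T - Y) / (τ * δ) * (a * τ) + (Y - a * T) / (τ * δ) * ((a + δ) * τ) = Y := by
      field_simp
      ring
    have e2 : ((a + δ) * T - Y) / (τ * δ) * τ + (Y - a * T) / (τ * δ) * τ = T := by
      field_simp
      ring
    ext i
    fin_cases i
    · simp only [rDir, rcPt, roPt, Bool.false_eq_true, if_false, PiLp.add_apply, PiLp.smul_apply,
        smul_eq_mul]
      change x 0 = 0 + (_ * (a * τ) + _ * ((a + δ) * τ)) + (x 0 - x 1) / 2 * (1 + tA a (a + δ))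
      rw [e1, hY]
      ring
    · simp only [rDir, rcPt, roPt, Bool.false_eq_true, if_false, PiLp.add_apply, PiLp.smul_apply,
        smul_eq_mul]
      change x 1 = 0 + (_ * (a * τ) + _ * ((a + δ) * τ)) + (x 0 - x 1) / 2 * (tA a (a + δ) - 1)
      rw [e1, hY]
      ring
    · simp only [rDir, rcPt, roPt, Bool.false_eq_true, if_false, PiLp.add_apply, PiLp.smul_apply,
        smul_eq_mul]
      change x 2 = -1 + (_ * (2 * τ) + _ * (2 * τ)) + (x 0 - x 1) / 2 * (2 * tB a (a + δ))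
      have e3 : ((a + δ) * T - Y) / (τ * δ) * (2 * τ) + (Y - a * T) / (τ * δ) * (2 * τ)
          = 2 * T := by
        linear_combination 2 * e2
      rw [e3, hT]
      ring

theorem rmem_upper {δ a : ℝ} {x : E3} (hδ : 0 < δ)
    (hτ : 0 < tT δ a)
    (h1 : a * (1 - (1 + x 2) / 2 - tB a (a + δ) * ((x 0 + x 1) / 2))
      ≤ -((x 0 - x 1) / 2) - tA a (a + δ) * ((x 0 + x 1) / 2))
    (h2 : -((x 0 - x 1) / 2) - tA a (a + δ) * ((x 0 + x 1) / 2)
      ≤ (a + δ) * (1 - (1 + x 2) / 2 - tB a (a + δ) * ((x 0 + x 1) / 2)))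
    (h3 : 1 - (1 + x 2) / 2 - tB a (a + δ) * ((x 0 + x 1) / 2) ≤ tT δ a) :
    x ∈ cylinder (‖rDir true a (a + δ)‖⁻¹ • rDir true a (a + δ))
      (cylBase (‖rDir true a (a + δ)‖⁻¹ • rDir true a (a + δ)) (roPt true)
        (rcPt true (tT δ a) a) (rcPt true (tT δ a) (a + δ))) := by
  set T := 1 - (1 + x 2) / 2 - tB a (a + δ) * ((x 0 + x 1) / 2) with hT
  set Y := -((x 0 - x 1) / 2) - tA a (a + δ) * ((x 0 + x 1) / 2) with hY
  set τ := tT δ a
  have hτδ : 0 < τ * δ := mul_pos hτ hδ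
  refine mem_cylinder_of (rDir_ne_zero _ _ _) (s := ((a + δ) * T - Y) / (τ * δ))
    (r := (Y - a * T) / (τ * δ)) (k := (x 0 + x 1) / 2) ⟨?_, ?_, ?_⟩ ?_
  · exact div_nonneg (by linarith only [h2]) hτδ.le
  · exact div_nonneg (by linarith only [h1]) hτδ.le
  · simp only
    rw [← add_div, div_le_one hτδ]
    nlinarith only [hδ, h3]
  · have e1 : ((a + δ) * T - Y) / (τ * δ) * (a * τ) + (Y - a * T) / (τ * δ) * ((a + δ) * τ) = Y := by
      field_simp
      ring
    have e2 : ((a + δ) * T - Y) / (τ * δ) * τ + (Y - a * T) / (τ * δ) * τ = T := by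
      field_simp
      ring
    ext i
    fin_cases i
    · simp only [rDir, rcPt, roPt, if_true, PiLp.add_apply, PiLp.smul_apply, smul_eq_mul]
      change x 0 = 0 + (_ * (-(a * τ)) + _ * (-((a + δ) * τ)))
        + (x 0 + x 1) / 2 * (1 - tA a (a + δ))
      have e3 : ((a + δ) * T - Y) / (τ * δ) * (-(a * τ)) + (Y - a * T) / (τ * δ) * (-((a + δ) * τ))
          = -Y := by
        linear_combination (-1) * e1
      rw [e3, hY]
      ring
    · simp only [rDir, rcPt, roPt, if_true, PiLp.add_apply, PiLp.smul_apply, smul_eq_mul]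
      change x 1 = 0 + (_ * (a * τ) + _ * ((a + δ) * τ)) + (x 0 + x 1) / 2 * (1 + tA a (a + δ))
      rw [e1, hY]
      ring
    · simp only [rDir, rcPt, roPt, if_true, PiLp.add_apply, PiLp.smul_apply, smul_eq_mul]
      change x 2 = 1 + (_ * (-(2 * τ)) + _ * (-(2 * τ)))
        + (x 0 + x 1) / 2 * (-(2 * tB a (a + δ)))
      have e3 : ((a + δ) * T - Y) / (τ * δ) * (-(2 * τ))
          + (Y - a * T) / (τ * δ) * (-(2 * τ)) = -(2 * T) := by
        linear_combination (-2) * e2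
      rw [e3, hT]
      ring

theorem tT_pos {δ a : ℝ} (hδ : 0 ≤ δ) : 0 < tT δ a := by
  unfold tT tau
  positivity

theorem rcell_convert {a c t X Y : ℝ} :
    (a * t + 9 / 100 * (1 - a ^ 2) * X ≤ Y ↔ a * (t - tB a c * X) ≤ Y - tA a c * X) ∧
    (Y ≤ c * t + 9 / 100 * (1 - c ^ 2) * X ↔ Y - tA a c * X ≤ c * (t - tB a c * X)) := by
  unfold tA tB
  constructor
  · constructor <;> intro h <;> linarith
  · constructor <;> intro h <;> linarith

/-- Every point of the tetrahedron lies in one of the cylinders. -/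
theorem regT_covered {N : ℕ} (hN : 2000 ≤ N) {x : E3} (hx : x ∈ regT) :
    ∃ (b : Bool) (j : Fin N), x ∈ cylinder
      (‖rDir b (grid N j) (grid N j + 2 / N)‖⁻¹ • rDir b (grid N j) (grid N j + 2 / N))
      (cylBase (‖rDir b (grid N j) (grid N j + 2 / N)‖⁻¹ • rDir b (grid N j) (grid N j + 2 / N))
        (roPt b) (rcPt b (tT (2 / N) (grid N j)) (grid N j))
        (rcPt b (tT (2 / N) (grid N j)) (grid N j + 2 / N))) := by
  have hN0 : 0 < N := by omega
  have hNr : (0 : ℝ) < N := by exact_mod_cast hN0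
  have hNr2 : (2000 : ℝ) ≤ N := by exact_mod_cast hN
  have hδ : (0 : ℝ) < 2 / N := by positivity
  have hδ1 : (2 : ℝ) / N ≤ 1 / 1000 := by
    rw [div_le_div_iff₀ hNr (by norm_num)]
    linarith
  obtain ⟨hx0, hx1⟩ := hx
  obtain ⟨a1, a2⟩ := abs_le.mp hx0
  obtain ⟨b1, b2⟩ := abs_le.mp hx1
  obtain ⟨j, hj, j1, j2⟩ := exists_fan_cell hN0 (p := 9 / 100) (X := (x 0 - x 1) / 2)
    (Y := (x 0 + x 1) / 2) (t := (1 + x 2) / 2) (by linarith only [a1]) (by linarith only [a2])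
  obtain ⟨i, hi, i1, i2⟩ := exists_fan_cell hN0 (p := 9 / 100) (X := (x 0 + x 1) / 2)
    (Y := -((x 0 - x 1) / 2)) (t := 1 - (1 + x 2) / 2) (by linarith only [b2])
    (by linarith only [b1])
  have j1' := (rcell_convert (c := grid N (j + 1))).1.mp j1
  have j2' := (rcell_convert (a := grid N j)).2.mp j2
  have i1' := (rcell_convert (c := grid N (i + 1))).1.mp i1
  have i2' := (rcell_convert (a := grid N i)).2.mp i2
  have ejs := grid_succ N j
  have eis := grid_succ N i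
  have hcj : grid N (j + 1) ≤ 1 := grid_le hN0 hj
  have hci : grid N (i + 1) ≤ 1 := grid_le hN0 hi
  rw [ejs] at j1' j2' hcj
  rw [eis] at i1' i2' hci
  rcases cover_key hδ.le hδ1 (grid_ge N j) hcj (grid_ge N i) hci j1' j2' i1' i2' with h | h
  · exact ⟨false, ⟨j, hj⟩, rmem_lower hδ (tT_pos hδ.le) j1' j2' h⟩
  · exact ⟨true, ⟨i, hi⟩, rmem_upper hδ (tT_pos hδ.le) i1' i2' h⟩

/-- The explicit covering of the regular tetrahedron. -/
theorem exists_covering_regT :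
    ∃ C : CylinderCovering regT, C.totalArea ≤ √8 * (1 / 2 - 1 / 5000) ∧
      ∀ k, IsCompact (C.base k) ∧ Convex ℝ (C.base k) := by
  obtain ⟨N, hNeq⟩ : ∃ N : ℕ, N = 10000000 := ⟨_, rfl⟩
  have hN : 2000 ≤ N := by omega
  have hN0 : 0 < N := by omega
  have hNr : (0 : ℝ) < N := by exact_mod_cast hN0
  have hδ : (0 : ℝ) ≤ 2 / N := by positivity
  obtain ⟨C, hC, hCb⟩ := exists_covering_fintype (K := regT) (ι := Bool × Fin N)
    (fun i => ‖rDir i.1 (grid N i.2) (grid N i.2 + 2 / N)‖⁻¹ •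
      rDir i.1 (grid N i.2) (grid N i.2 + 2 / N))
    (fun i => norm_inv_smul (rDir_ne_zero _ _ _))
    (fun i => cylBase _ (roPt i.1) (rcPt i.1 (tT (2 / N) (grid N i.2)) (grid N i.2))
        (rcPt i.1 (tT (2 / N) (grid N i.2)) (grid N i.2 + 2 / N)))
    (fun i => (isCompact_cylBase _ _ _ _).measurableSet.nullMeasurableSet)
    (fun i => (isCompact_cylBase _ _ _ _).measure_lt_top.ne)
    (fun x hx => by
      obtain ⟨b, j, h⟩ := regT_covered hN hx
      exact Set.mem_iUnion.mpr ⟨(b, j), h⟩)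
  refine ⟨C, ?_, ?_⟩
  · rw [hC, Fintype.sum_prod_type]
    simp only [rarea_base _ hδ, Fintype.sum_bool]
    rw [← Finset.mul_sum, Fin.sum_univ_eq_sum_range (fun j => rcell (2 / N) (grid N j)) N]
    have h1 := sum_rcell_le hNeq
    have h2 : 0 ≤ √(8 : ℝ) := Real.sqrt_nonneg _
    nlinarith only [mul_le_mul_of_nonneg_left h1 h2]
  · exact hCb (fun u B => IsCompact B ∧ Convex ℝ B)
      (fun i => ⟨isCompact_cylBase _ _ _ _, convex_cylBase _ _ _ _⟩)

end Vale.Agent.P243.H344
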