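import Vale.Agent.P243.Plain
import Vale.Agent.P243.H344.PlankMeas
import Mathlib.LinearAlgebra.CrossProduct
import Mathlib.MeasureTheory.Group.LIntegral
import Mathlib.MeasureTheory.Measure.Prod
import Mathlib.Analysis.SpecialFunctions.Integrals.Basic

/-! # Slicing a convex body by parallel planes -/

open MeasureTheory
open scoped ENNReal

namespace Vale.Agent.P243.H344

theorem parseval {a b c : Fin 3 → ℝ} (haa : a ⬝ᵥ a = 1) (hbb : b ⬝ᵥ b = 1) (hcc : c ⬝ᵥ c = 1)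
    (hab : a ⬝ᵥ b = 0) (hac : a ⬝ᵥ c = 0) (hbc : b ⬝ᵥ c = 0) (x y : Fin 3 → ℝ) :
    x ⬝ᵥ y = (a ⬝ᵥ x) * (a ⬝ᵥ y) + (b ⬝ᵥ x) * (b ⬝ᵥ y) + (c ⬝ᵥ x) * (c ⬝ᵥ y) := by
  simp only [dotProduct, Fin.sum_univ_three] at *
  have h : (Matrix.of ![a, b, c]) * (Matrix.of ![a, b, c]).transpose = 1 := by
    ext i j
    fin_cases i <;> fin_cases j <;>
      simp [Matrix.mul_apply, Fin.sum_univ_three] <;> linarith
  have h' := mul_eq_one_comm.mp h
  have hij : ∀ i j, a i * a j + b i * b j + c i * c j = if i = j then 1 else 0 := by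
    intro i j
    have := congrFun (congrFun h' i) j
    simpa [Matrix.mul_apply, Fin.sum_univ_three, Matrix.one_apply] using this
  have e00 := hij 0 0
  have e01 := hij 0 1
  have e02 := hij 0 2
  have e11 := hij 1 1
  have e12 := hij 1 2
  have e22 := hij 2 2
  rw [if_pos rfl] at e00 e11 e22
  rw [if_neg (by decide)] at e01 e02 e12
  linear_combination (-(x 0 * y 0)) * e00 - (x 0 * y 1 + x 1 * y 0) * e01
    - (x 0 * y 2 + x 2 * y 0) * e02 - (x 1 * y 1) * e11 - (x 1 * y 2 + x 2 * y 1) * e12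
    - (x 2 * y 2) * e22

/-- One-dimensional Brunn–Minkowski inequality for compact intervals. -/
theorem volume_add_le {A B C : Set ℝ} (hA : IsCompact A) (hAn : A.Nonempty)
    (hB : IsCompact B) (hBn : B.Nonempty) (hC : Convex ℝ C)
    (h : ∀ a ∈ A, ∀ b ∈ B, (a + b) / 2 ∈ C) : volume A + volume B ≤ 2 * volume C := by
  have a1 := hA.sInf_mem hAn
  have a2 := hA.sSup_mem hAn
  have b1 := hB.sInf_mem hBn
  have b2 := hB.sSup_mem hBn
  have hA' : A ⊆ Set.Icc (sInf A) (sSup A) := fun x hx =>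
    ⟨csInf_le hA.bddBelow hx, le_csSup hA.bddAbove hx⟩
  have hB' : B ⊆ Set.Icc (sInf B) (sSup B) := fun x hx =>
    ⟨csInf_le hB.bddBelow hx, le_csSup hB.bddAbove hx⟩
  have hC' : Set.Icc ((sInf A + sInf B) / 2) ((sSup A + sSup B) / 2) ⊆ C :=
    hC.ordConnected.out (h _ a1 _ b1) (h _ a2 _ b2)
  have e1 : 0 ≤ sSup A - sInf A := sub_nonneg.mpr (hA' a1).2
  have e2 : 0 ≤ sSup B - sInf B := sub_nonneg.mpr (hB' b1).2
  calc volume A + volume B
      ≤ volume (Set.Icc (sInf A) (sSup A)) + volume (Set.Icc (sInf B) (sSup B)) :=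
        add_le_add (measure_mono hA') (measure_mono hB')
    _ = ENNReal.ofReal (2 * ((sSup A + sSup B) / 2 - (sInf A + sInf B) / 2)) := by
        rw [Real.volume_Icc, Real.volume_Icc, ← ENNReal.ofReal_add e1 e2]
        congr 1; ring
    _ = 2 * volume (Set.Icc ((sInf A + sInf B) / 2) ((sSup A + sSup B) / 2)) := by
        rw [Real.volume_Icc, ENNReal.ofReal_mul (by norm_num)]
        norm_num
    _ ≤ 2 * volume C := by gcongr

/-- The area of a planar convex set is at most its height times its middle slice. -/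
theorem area_le_mid {S : Set (ℝ × ℝ)} (hc : IsCompact S) (hv : Convex ℝ S) {z0 z1 : ℝ}
    (hrange : ∀ x ∈ S, z0 ≤ x.2 ∧ x.2 ≤ z1)
    (hne : ∀ z, z0 ≤ z → z ≤ z1 → ∃ r, (r, z) ∈ S) :
    volume S ≤ ENNReal.ofReal (z1 - z0) * volume {r : ℝ | (r, (z0 + z1) / 2) ∈ S} := by
  set ℓ : ℝ → ℝ≥0∞ := fun z => volume {r : ℝ | (r, z) ∈ S} with hℓ
  have hmeas : Measurable ℓ := measurable_measure_prodMk_right hc.measurableSet
  have hvol : volume S = ∫⁻ z, ℓ z := by
    have := Measure.prod_apply_symm (μ := (volume : Measure ℝ)) (ν := (volume : Measure ℝ))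
      hc.measurableSet
    exact this
  have hcs : ∀ z, IsCompact {r : ℝ | (r, z) ∈ S} := by
    intro z
    have h1 : {r : ℝ | (r, z) ∈ S} = Prod.fst '' (S ∩ {x | x.2 = z}) := by
      ext r
      constructor
      · intro hr
        exact ⟨(r, z), ⟨hr, rfl⟩, rfl⟩
      · rintro ⟨⟨a, b⟩, ⟨h2, h3⟩, rfl⟩
        have h3' : b = z := h3
        subst h3'
        exact h2
    rw [h1]
    exact (hc.inter_right (isClosed_eq continuous_snd continuous_const)).image continuous_fst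
  have hvs : ∀ z, Convex ℝ {r : ℝ | (r, z) ∈ S} := by
    intro z r hr s hs a b ha hb hab
    have := hv hr hs ha hb hab
    have e : a • ((r, z) : ℝ × ℝ) + b • ((s, z) : ℝ × ℝ) = (a • r + b • s, z) := by
      ext
      · simp
      · simp only [Prod.snd_add, Prod.smul_snd, smul_eq_mul]
        rw [← add_mul, hab, one_mul]
    rw [e] at this
    exact this
  have hpt : ∀ z, ℓ z + ℓ (z0 + z1 - z)
      ≤ (Set.Icc z0 z1).indicator (fun _ => 2 * ℓ ((z0 + z1) / 2)) z := by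
    intro z
    by_cases hzz : z ∈ Set.Icc z0 z1
    · rw [Set.indicator_of_mem hzz]
      apply volume_add_le (hcs _) (hne z hzz.1 hzz.2) (hcs _)
        (hne (z0 + z1 - z) (by linarith [hzz.2]) (by linarith [hzz.1])) (hvs _)
      intro a ha b hb
      have := hv ha hb (by norm_num : (0 : ℝ) ≤ 1 / 2) (by norm_num : (0 : ℝ) ≤ 1 / 2)
        (by norm_num)
      have e : (1 / 2 : ℝ) • ((a, z) : ℝ × ℝ) + (1 / 2 : ℝ) • ((b, z0 + z1 - z) : ℝ × ℝ)
          = ((a + b) / 2, (z0 + z1) / 2) := by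
        ext
        · simp only [Prod.fst_add, Prod.smul_fst, smul_eq_mul]; ring
        · simp only [Prod.snd_add, Prod.smul_snd, smul_eq_mul]; ring
      rw [e] at this
      exact this
    · rw [Set.indicator_of_notMem hzz]
      have h1 : ℓ z = 0 := by
        have : {r : ℝ | (r, z) ∈ S} = ∅ := by
          ext r
          simp only [Set.mem_ofPred_eq, Set.mem_empty_iff_false, iff_false]
          intro hr
          exact hzz (hrange _ hr)
        simp only [hℓ, this, measure_empty]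
      have h2 : ℓ (z0 + z1 - z) = 0 := by
        have : {r : ℝ | (r, z0 + z1 - z) ∈ S} = ∅ := by
          ext r
          simp only [Set.mem_ofPred_eq, Set.mem_empty_iff_false, iff_false]
          intro hr
          have h3 := hrange _ hr
          simp only at h3
          exact hzz ⟨by linarith [h3.2], by linarith [h3.1]⟩
        simp only [hℓ, this, measure_empty]
      rw [h1, h2, add_zero]
  have h2 : 2 * volume S ≤ 2 * (ENNReal.ofReal (z1 - z0) * ℓ ((z0 + z1) / 2)) := by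
    calc 2 * volume S = (∫⁻ z, ℓ z) + ∫⁻ z, ℓ (z0 + z1 - z) := by
          rw [lintegral_sub_left_eq_self ℓ (z0 + z1), hvol, two_mul]
      _ = ∫⁻ z, (ℓ z + ℓ (z0 + z1 - z)) := (lintegral_add_left hmeas _).symm
      _ ≤ ∫⁻ z, (Set.Icc z0 z1).indicator (fun _ => 2 * ℓ ((z0 + z1) / 2)) z :=
          lintegral_mono hpt
      _ = 2 * (ENNReal.ofReal (z1 - z0) * ℓ ((z0 + z1) / 2)) := by
          rw [lintegral_indicator measurableSet_Icc, setLIntegral_const, Real.volume_Icc]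
          ring
  exact (ENNReal.mul_le_mul_iff_right (by norm_num) (by norm_num)).mp h2

/-- The slice of `K` at height `z` over the plane `v ⬝ᵥ x = z`, in the coordinates `p, q`. -/
def slice (p q v : Fin 3 → ℝ) (K : Set (Fin 3 → ℝ)) (z : ℝ) : Set (ℝ × ℝ) :=
  (fun x => (p ⬝ᵥ x, q ⬝ᵥ x)) '' (K ∩ {x | v ⬝ᵥ x = z})

theorem continuous_dot (a : Fin 3 → ℝ) : Continuous fun x : Fin 3 → ℝ => a ⬝ᵥ x := by
  simp only [dotProduct, Fin.sum_univ_three]
  fun_prop

theorem isCompact_slice {p q v : Fin 3 → ℝ} {K : Set (Fin 3 → ℝ)} (hK : IsCompact K) (z : ℝ) :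
    IsCompact (slice p q v K z) :=
  (hK.inter_right (isClosed_eq (continuous_dot v) continuous_const)).image
    ((continuous_dot p).prodMk (continuous_dot q))

theorem convex_slice {p q v : Fin 3 → ℝ} {K : Set (Fin 3 → ℝ)} (hK : Convex ℝ K) (z : ℝ) :
    Convex ℝ (slice p q v K z) := by
  rintro _ ⟨x, ⟨hx, hx'⟩, rfl⟩ _ ⟨y, ⟨hy, hy'⟩, rfl⟩ a b ha hb hab
  have hx'' : v ⬝ᵥ x = z := hx'
  have hy'' : v ⬝ᵥ y = z := hy'
  refine ⟨a • x + b • y, ⟨hK hx hy ha hb hab, ?_⟩, ?_⟩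
  · change v ⬝ᵥ (a • x + b • y) = z
    rw [dotProduct_add, dotProduct_smul, dotProduct_smul, hx'', hy'', smul_eq_mul, smul_eq_mul,
      ← add_mul, hab, one_mul]
  · simp only [dotProduct_add, dotProduct_smul, Prod.smul_mk, Prod.mk_add_mk]

/-- Slices between a slice of large width and a point are large as well. -/
theorem wide_slice {p q v : Fin 3 → ℝ} {K : Set (Fin 3 → ℝ)} (hK : Convex ℝ K) {a : Fin 3 → ℝ}
    (ha : a ∈ K) {m W : ℝ} (h : Wide (slice p q v K m) W) {t : ℝ} (ht0 : 0 ≤ t) (ht1 : t ≤ 1) :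
    Wide (slice p q v K ((1 - t) * (v ⬝ᵥ a) + t * m)) (t * W) := by
  intro α β hu
  obtain ⟨_, ⟨x, ⟨hx, hx'⟩, rfl⟩, _, ⟨y, ⟨hy, hy'⟩, rfl⟩, hxy⟩ := h α β hu
  have hx'' : v ⬝ᵥ x = m := hx'
  have hy'' : v ⬝ᵥ y = m := hy'
  refine ⟨_, ⟨(1 - t) • a + t • x, ⟨hK ha hx (by linarith) ht0 (by ring), ?_⟩, rfl⟩,
    _, ⟨(1 - t) • a + t • y, ⟨hK ha hy (by linarith) ht0 (by ring), ?_⟩, rfl⟩, ?_⟩
  · change v ⬝ᵥ ((1 - t) • a + t • x) = _
    rw [dotProduct_add, dotProduct_smul, dotProduct_smul, hx'', smul_eq_mul, smul_eq_mul]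
  · change v ⬝ᵥ ((1 - t) • a + t • y) = _
    rw [dotProduct_add, dotProduct_smul, dotProduct_smul, hy'', smul_eq_mul, smul_eq_mul]
  · simp only [dotProduct_add, dotProduct_smul, smul_eq_mul] at hxy ⊢
    nlinarith [mul_le_mul_of_nonneg_left hxy ht0]

open Vale.Agent.P243.Plain

theorem Amin_le (K : Set (Fin 3 → ℝ)) (F : Frame) : Amin K ≤ F.shadow K :=
  ciInf_le ⟨0, by rintro _ ⟨G, rfl⟩; exact ENNReal.toReal_nonneg⟩ F

/-- The widths of the middle slice are bounded below by `Amin` over the height. -/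
theorem wide_mid {p q v : Fin 3 → ℝ} (hpp : p ⬝ᵥ p = 1) (hqq : q ⬝ᵥ q = 1) (hvv : v ⬝ᵥ v = 1)
    (hpq : p ⬝ᵥ q = 0) (hpv : p ⬝ᵥ v = 0) (hqv : q ⬝ᵥ v = 0) {K : Set (Fin 3 → ℝ)}
    (hc : IsCompact K) (hK : Convex ℝ K) {a b : Fin 3 → ℝ} (ha : a ∈ K) (hb : b ∈ K)
    (hab : v ⬝ᵥ a < v ⬝ᵥ b) (hrange : ∀ x ∈ K, v ⬝ᵥ a ≤ v ⬝ᵥ x ∧ v ⬝ᵥ x ≤ v ⬝ᵥ b) :
    Wide (slice p q v K ((v ⬝ᵥ a + v ⬝ᵥ b) / 2)) (Amin K / (v ⬝ᵥ b - v ⬝ᵥ a)) := by
  intro α β hu
  set m := (v ⬝ᵥ a + v ⬝ᵥ b) / 2 with hm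
  set H := v ⬝ᵥ b - v ⬝ᵥ a with hH
  have hH0 : 0 < H := by linarith
  -- the frame
  let F : Frame :=
    { e := α • p + β • q
      f := v
      norm_e := by
        simp only [add_dotProduct, dotProduct_add, smul_dotProduct, dotProduct_smul, hpp, hqq, hpq,
          dotProduct_comm q p, smul_eq_mul]
        linear_combination hu
      norm_f := hvv
      orthogonal := by
        simp only [add_dotProduct, smul_dotProduct, hpv, hqv, smul_eq_mul]
        ring }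
  have hFe : ∀ x, F.e ⬝ᵥ x = α * (p ⬝ᵥ x) + β * (q ⬝ᵥ x) := by
    intro x
    change (α • p + β • q) ⬝ᵥ x = _
    simp only [add_dotProduct, smul_dotProduct, smul_eq_mul]
  set S := F.proj '' K with hS
  have hSc : IsCompact S := hc.image ((continuous_dot _).prodMk (continuous_dot _))
  have hSv : Convex ℝ S := by
    rintro _ ⟨x, hx, rfl⟩ _ ⟨y, hy, rfl⟩ s t hs ht hst
    refine ⟨s • x + t • y, hK hx hy hs ht hst, ?_⟩
    simp only [Frame.proj, dotProduct_add, dotProduct_smul, Prod.smul_mk, Prod.mk_add_mk]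
  have hSr : ∀ y ∈ S, v ⬝ᵥ a ≤ y.2 ∧ y.2 ≤ v ⬝ᵥ b := by
    rintro _ ⟨x, hx, rfl⟩
    exact hrange x hx
  have hSn : ∀ z, v ⬝ᵥ a ≤ z → z ≤ v ⬝ᵥ b → ∃ r, (r, z) ∈ S := by
    intro z h1 h2
    set t := (z - v ⬝ᵥ a) / H with ht
    have ht0 : 0 ≤ t := div_nonneg (by linarith) hH0.le
    have ht1 : t ≤ 1 := by rw [ht, div_le_one hH0]; linarith
    have htz : t * H = z - v ⬝ᵥ a := by rw [ht]; field_simp
    refine ⟨F.e ⬝ᵥ ((1 - t) • a + t • b), (1 - t) • a + t • b,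
      hK ha hb (by linarith) ht0 (by ring), ?_⟩
    simp only [Frame.proj, Prod.mk.injEq, true_and]
    change v ⬝ᵥ _ = z
    rw [dotProduct_add, dotProduct_smul, dotProduct_smul, smul_eq_mul, smul_eq_mul]
    linarith
  have harea := area_le_mid hSc hSv hSr hSn
  -- the middle slice
  have hDc := isCompact_slice (p := p) (q := q) (v := v) hc m
  have hDn : (slice p q v K m).Nonempty := by
    obtain ⟨r, x, hx, hx'⟩ := hSn m (by linarith) (by linarith)
    simp only [Frame.proj, Prod.mk.injEq] at hx'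
    exact ⟨_, x, ⟨hx, hx'.2⟩, rfl⟩
  have hcont : Continuous fun y : ℝ × ℝ => α * y.1 + β * y.2 := by fun_prop
  obtain ⟨x, hx, hxmax⟩ := hDc.exists_isMaxOn hDn hcont.continuousOn
  obtain ⟨y, hy, hymin⟩ := hDc.exists_isMinOn hDn hcont.continuousOn
  refine ⟨x, hx, y, hy, ?_⟩
  set w := α * (x.1 - y.1) + β * (x.2 - y.2) with hw
  have hw0 : 0 ≤ w := by
    have := hxmax hy
    simp only [Set.mem_ofPred_eq] at this
    rw [hw]; linarith
  have hsub : {r : ℝ | (r, m) ∈ S} ⊆ Set.Icc (α * y.1 + β * y.2) (α * x.1 + β * x.2) := by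
    rintro r ⟨u, hu1, hu2⟩
    simp only [Frame.proj, Prod.mk.injEq] at hu2
    have hmem : (p ⬝ᵥ u, q ⬝ᵥ u) ∈ slice p q v K m := ⟨u, ⟨hu1, hu2.2⟩, rfl⟩
    have h1 := hxmax hmem
    have h2 := hymin hmem
    simp only [Set.mem_ofPred_eq] at h1 h2
    rw [← hu2.1, hFe]
    exact ⟨h2, h1⟩
  have hle : volume {r : ℝ | (r, m) ∈ S} ≤ ENNReal.ofReal w := by
    refine (measure_mono hsub).trans ?_
    rw [Real.volume_Icc]
    apply ENNReal.ofReal_le_ofReal
    rw [hw]; linarith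
  have h5 : volume S ≤ ENNReal.ofReal (H * w) := by
    rw [ENNReal.ofReal_mul hH0.le]
    exact harea.trans (by gcongr)
  have h6 : Amin K ≤ H * w := by
    refine (Amin_le K F).trans ?_
    have := ENNReal.toReal_mono ENNReal.ofReal_ne_top h5
    rwa [ENNReal.toReal_ofReal (by positivity)] at this
  rw [div_le_iff₀ hH0]
  linarith

end Vale.Agent.P243.H344
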