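import Vale.Agent.P243.H344.TwoDir
import Vale.Agent.P243.H344.Main
import Mathlib.LinearAlgebra.Matrix.ToLinearEquiv

/-! # The one-codimensional cylinder covering inequality for two axis directions -/

open MeasureTheory
open scoped ENNReal Matrix

namespace Vale.Agent.P243.H344

open Vale.Agent.P243.Plain

theorem shadow_pos (F : Frame) {K : Set (Fin 3 → ℝ)} (hK : IsConvexBody K) : 0 < F.shadow K := by
  obtain ⟨hc, -, x0, hx0⟩ := hK
  have hcomp : IsCompact (F.proj '' K) :=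
    hc.image ((continuous_dot _).prodMk (continuous_dot _))
  set N : Set (ℝ × ℝ) := {y | x0 + ((y.1 - F.e ⬝ᵥ x0) • F.e + (y.2 - F.f ⬝ᵥ x0) • F.f)
    ∈ interior K} with hN
  have hNo : IsOpen N := by
    apply isOpen_interior.preimage
    fun_prop
  have hNn : N.Nonempty := ⟨(F.e ⬝ᵥ x0, F.f ⬝ᵥ x0), by
    simp only [hN, Set.mem_ofPred_eq, sub_self, zero_smul, add_zero]
    exact hx0⟩
  have hsub : N ⊆ F.proj '' K := by
    intro y hy
    refine ⟨_, interior_subset hy, ?_⟩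
    simp only [Frame.proj, dotProduct_add, dotProduct_smul, F.norm_e, F.norm_f, F.orthogonal,
      dotProduct_comm F.f F.e, smul_eq_mul, mul_one, mul_zero, add_zero, zero_add]
    ext
    · simp only; ring
    · simp only; ring
  apply ENNReal.toReal_pos
  · exact ((hNo.measure_pos volume hNn).trans_le (measure_mono hsub)).ne'
  · exact hcomp.measure_lt_top.ne

/-- The middle slice of a body is wide in the direction `F.e`. -/
theorem mid_width (F : Frame) {K : Set (Fin 3 → ℝ)}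
    (hc : IsCompact K) (hK : Convex ℝ K) {a b : Fin 3 → ℝ} (ha : a ∈ K) (hb : b ∈ K)
    (hab : F.f ⬝ᵥ a < F.f ⬝ᵥ b) (hrange : ∀ x ∈ K, F.f ⬝ᵥ a ≤ F.f ⬝ᵥ x ∧ F.f ⬝ᵥ x ≤ F.f ⬝ᵥ b) :
    ∃ x ∈ K, ∃ y ∈ K, F.f ⬝ᵥ x = (F.f ⬝ᵥ a + F.f ⬝ᵥ b) / 2 ∧
      F.f ⬝ᵥ y = (F.f ⬝ᵥ a + F.f ⬝ᵥ b) / 2 ∧
      F.shadow K ≤ (F.f ⬝ᵥ b - F.f ⬝ᵥ a) * (F.e ⬝ᵥ x - F.e ⬝ᵥ y) := by
  set m := (F.f ⬝ᵥ a + F.f ⬝ᵥ b) / 2 with hm
  set H := F.f ⬝ᵥ b - F.f ⬝ᵥ a with hH
  have hH0 : 0 < H := by linarith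
  set S := F.proj '' K with hS
  have hSc : IsCompact S := hc.image ((continuous_dot _).prodMk (continuous_dot _))
  have hSv : Convex ℝ S := by
    rintro _ ⟨x, hx, rfl⟩ _ ⟨y, hy, rfl⟩ s t hs ht hst
    refine ⟨s • x + t • y, hK hx hy hs ht hst, ?_⟩
    simp only [Frame.proj, dotProduct_add, dotProduct_smul, Prod.smul_mk, Prod.mk_add_mk]
  have hSr : ∀ y ∈ S, F.f ⬝ᵥ a ≤ y.2 ∧ y.2 ≤ F.f ⬝ᵥ b := by
    rintro _ ⟨x, hx, rfl⟩
    exact hrange x hx
  have hSn : ∀ z, F.f ⬝ᵥ a ≤ z → z ≤ F.f ⬝ᵥ b → ∃ r, (r, z) ∈ S := by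
    intro z h1 h2
    set t := (z - F.f ⬝ᵥ a) / H with ht
    have ht0 : 0 ≤ t := div_nonneg (by linarith) hH0.le
    have ht1 : t ≤ 1 := by rw [ht, div_le_one hH0]; linarith
    have htz : t * H = z - F.f ⬝ᵥ a := by rw [ht]; field_simp
    refine ⟨F.e ⬝ᵥ ((1 - t) • a + t • b), (1 - t) • a + t • b,
      hK ha hb (by linarith) ht0 (by ring), ?_⟩
    simp only [Frame.proj, Prod.mk.injEq, true_and]
    rw [dotProduct_add, dotProduct_smul, dotProduct_smul, smul_eq_mul, smul_eq_mul]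
    linarith
  have harea := area_le_mid hSc hSv hSr hSn
  have hMc : IsCompact (K ∩ {x | F.f ⬝ᵥ x = m}) :=
    hc.inter_right (isClosed_eq (continuous_dot _) continuous_const)
  have hMn : (K ∩ {x | F.f ⬝ᵥ x = m}).Nonempty := by
    obtain ⟨r, x, hx, hx'⟩ := hSn m (by linarith) (by linarith)
    simp only [Frame.proj, Prod.mk.injEq] at hx'
    exact ⟨x, hx, hx'.2⟩
  obtain ⟨x, hx, hxmax⟩ := hMc.exists_isMaxOn hMn (continuous_dot F.e).continuousOn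
  obtain ⟨y, hy, hymin⟩ := hMc.exists_isMinOn hMn (continuous_dot F.e).continuousOn
  refine ⟨x, hx.1, y, hy.1, hx.2, hy.2, ?_⟩
  have hw0 : 0 ≤ F.e ⬝ᵥ x - F.e ⬝ᵥ y := sub_nonneg.mpr (hxmax hy)
  have hsub : {r : ℝ | (r, m) ∈ S} ⊆ Set.Icc (F.e ⬝ᵥ y) (F.e ⬝ᵥ x) := by
    rintro r ⟨u, hu1, hu2⟩
    simp only [Frame.proj, Prod.mk.injEq] at hu2
    have hmem : u ∈ K ∩ {x | F.f ⬝ᵥ x = m} := ⟨hu1, hu2.2⟩
    rw [← hu2.1]
    exact ⟨hymin hmem, hxmax hmem⟩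
  have hle : volume {r : ℝ | (r, m) ∈ S} ≤ ENNReal.ofReal (F.e ⬝ᵥ x - F.e ⬝ᵥ y) := by
    refine (measure_mono hsub).trans ?_
    rw [Real.volume_Icc]
  have h5 : volume S ≤ ENNReal.ofReal (H * (F.e ⬝ᵥ x - F.e ⬝ᵥ y)) := by
    rw [ENNReal.ofReal_mul hH0.le]
    exact harea.trans (by gcongr)
  have := ENNReal.toReal_mono ENNReal.ofReal_ne_top h5
  rwa [ENNReal.toReal_ofReal (by positivity)] at this

/-- The widths of all slices. -/
theorem slice_width (F : Frame) {K : Set (Fin 3 → ℝ)}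
    (hc : IsCompact K) (hK : Convex ℝ K) {a b : Fin 3 → ℝ} (ha : a ∈ K) (hb : b ∈ K)
    (hab : F.f ⬝ᵥ a < F.f ⬝ᵥ b) (hrange : ∀ x ∈ K, F.f ⬝ᵥ a ≤ F.f ⬝ᵥ x ∧ F.f ⬝ᵥ x ≤ F.f ⬝ᵥ b)
    {z : ℝ} (hz : z ∈ Set.Icc (F.f ⬝ᵥ a) (F.f ⬝ᵥ b)) :
    ∃ x ∈ K, ∃ y ∈ K, F.f ⬝ᵥ x = z ∧ F.f ⬝ᵥ y = z ∧
      2 / (F.f ⬝ᵥ b - F.f ⬝ᵥ a) ^ 2 * min (z - F.f ⬝ᵥ a) (F.f ⬝ᵥ b - z) * F.shadow K
        ≤ F.e ⬝ᵥ x - F.e ⬝ᵥ y := by
  obtain ⟨x, hx, y, hy, hxm, hym, hxy⟩ := mid_width F hc hK ha hb hab hrange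
  set H := F.f ⬝ᵥ b - F.f ⬝ᵥ a with hH
  have hH0 : 0 < H := by linarith
  -- interpolation towards a point `p` of `K` with parameter `t`
  have key : ∀ p ∈ K, ∀ t : ℝ, 0 ≤ t → t ≤ 1 →
      (1 - t) * (F.f ⬝ᵥ p) + t * ((F.f ⬝ᵥ a + F.f ⬝ᵥ b) / 2) = z →
      ∃ x ∈ K, ∃ y ∈ K, F.f ⬝ᵥ x = z ∧ F.f ⬝ᵥ y = z ∧
        t / H * F.shadow K ≤ F.e ⬝ᵥ x - F.e ⬝ᵥ y := by
    intro p hp t ht0 ht1 htz
    refine ⟨(1 - t) • p + t • x, hK hp hx (by linarith) ht0 (by ring),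
      (1 - t) • p + t • y, hK hp hy (by linarith) ht0 (by ring), ?_, ?_, ?_⟩
    · rw [dotProduct_add, dotProduct_smul, dotProduct_smul, hxm, smul_eq_mul, smul_eq_mul, htz]
    · rw [dotProduct_add, dotProduct_smul, dotProduct_smul, hym, smul_eq_mul, smul_eq_mul, htz]
    · simp only [dotProduct_add, dotProduct_smul, smul_eq_mul]
      have h1 : t / H * F.shadow K ≤ t / H * (H * (F.e ⬝ᵥ x - F.e ⬝ᵥ y)) :=
        mul_le_mul_of_nonneg_left hxy (div_nonneg ht0 hH0.le)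
      have h2 : t / H * (H * (F.e ⬝ᵥ x - F.e ⬝ᵥ y)) = t * (F.e ⬝ᵥ x - F.e ⬝ᵥ y) := by
        field_simp
      rw [h2] at h1
      linarith
  obtain ⟨hz1, hz2⟩ := hz
  rcases le_total z ((F.f ⬝ᵥ a + F.f ⬝ᵥ b) / 2) with hzm | hzm
  · obtain ⟨x', hx', y', hy', h1, h2, h3⟩ := key a ha ((z - F.f ⬝ᵥ a) / (H / 2))
      (div_nonneg (by linarith) (by positivity)) (by rw [div_le_one (by positivity)]; linarith)
      (by field_simp; rw [hH]; ring)
    refine ⟨x', hx', y', hy', h1, h2, le_of_eq_of_le ?_ h3⟩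
    rw [min_eq_left (by linarith)]
    field_simp
  · obtain ⟨x', hx', y', hy', h1, h2, h3⟩ := key b hb ((F.f ⬝ᵥ b - z) / (H / 2))
      (div_nonneg (by linarith) (by positivity)) (by rw [div_le_one (by positivity)]; linarith)
      (by field_simp; rw [hH]; ring)
    refine ⟨x', hx', y', hy', h1, h2, le_of_eq_of_le ?_ h3⟩
    rw [min_eq_right (by linarith)]
    field_simp

/-- Pointwise arithmetic for the relative inequality. -/
theorem rel_arith {P Q : ℝ≥0∞} {w1 w2 s1 s2 κ : ℝ} (hs1 : 0 < s1) (hs2 : 0 < s2) (hκ : 0 ≤ κ)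
    (h1 : κ * s1 ≤ w1) (h2 : κ * s2 ≤ w2)
    (h : ENNReal.ofReal (w1 * w2) ≤ P * ENNReal.ofReal w2 + Q * ENNReal.ofReal w1) :
    ENNReal.ofReal (κ * (s1 * s2)) ≤ P * ENNReal.ofReal s2 + Q * ENNReal.ofReal s1 := by
  rcases hκ.eq_or_lt with h0 | hκ0
  · rw [← h0, zero_mul, ENNReal.ofReal_zero]; exact zero_le
  rcases eq_or_ne P ∞ with hPi | hPf
  · rw [hPi, ENNReal.top_mul (by simpa using hs2)]; simp
  rcases eq_or_ne Q ∞ with hQi | hQf
  · rw [hQi, ENNReal.top_mul (by simpa using hs1)]; simp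
  have hw1 : 0 < w1 := lt_of_lt_of_le (by positivity) h1
  have hw2 : 0 < w2 := lt_of_lt_of_le (by positivity) h2
  rw [← ENNReal.ofReal_toReal hPf, ← ENNReal.ofReal_toReal hQf] at h ⊢
  set p := P.toReal with hp
  set q := Q.toReal with hq
  have hp0 : 0 ≤ p := ENNReal.toReal_nonneg
  have hq0 : 0 ≤ q := ENNReal.toReal_nonneg
  rw [← ENNReal.ofReal_mul hp0, ← ENNReal.ofReal_mul hq0,
    ← ENNReal.ofReal_add (by positivity) (by positivity)] at h ⊢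
  rw [ENNReal.ofReal_le_ofReal_iff (by positivity)] at h
  apply ENNReal.ofReal_le_ofReal
  have e1 : 1 ≤ p / w1 + q / w2 := by
    rw [div_add_div _ _ hw1.ne' hw2.ne', le_div_iff₀ (by positivity)]
    linarith
  have e2 : p / w1 ≤ p / (κ * s1) := div_le_div_of_nonneg_left hp0 (by positivity) h1
  have e3 : q / w2 ≤ q / (κ * s2) := div_le_div_of_nonneg_left hq0 (by positivity) h2
  have e4 : 1 ≤ p / (κ * s1) + q / (κ * s2) := by linarith
  have e5 : p / (κ * s1) + q / (κ * s2) = (p * s2 + q * s1) / (κ * (s1 * s2)) := by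
    field_simp
  rw [e5, le_div_iff₀ (by positivity)] at e4
  linarith

/-- The relative inequality for two families of parallel cylinders. -/
theorem two_families (F G : Frame) (hFG : F.f = G.f) {K : Set (Fin 3 → ℝ)} (hK : IsConvexBody K)
    {P Q : Set (ℝ × ℝ)} (hP : MeasurableSet P) (hQ : MeasurableSet Q)
    (hcov : ∀ x ∈ K, F.proj x ∈ P ∨ G.proj x ∈ Q) :
    ENNReal.ofReal (1 / 2 * (F.shadow K * G.shadow K))
      ≤ volume P * ENNReal.ofReal (G.shadow K) + volume Q * ENNReal.ofReal (F.shadow K) := by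
  have hs1 := shadow_pos F hK
  have hs2 := shadow_pos G hK
  obtain ⟨hc, hKv, x0, hx0⟩ := hK
  set v := F.f with hv
  have hvv : v ⬝ᵥ v = 1 := F.norm_f
  have hne : K.Nonempty := ⟨x0, interior_subset hx0⟩
  obtain ⟨a, ha, hamin⟩ := hc.exists_isMinOn hne (continuous_dot v).continuousOn
  obtain ⟨b, hb, hbmax⟩ := hc.exists_isMaxOn hne (continuous_dot v).continuousOn
  have hrange : ∀ x ∈ K, v ⬝ᵥ a ≤ v ⬝ᵥ x ∧ v ⬝ᵥ x ≤ v ⬝ᵥ b := fun x hx => ⟨hamin hx, hbmax hx⟩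
  have hab : v ⬝ᵥ a < v ⬝ᵥ b := by
    have hcont : Continuous fun t : ℝ => x0 + t • v := by fun_prop
    have hnh : (fun t : ℝ => x0 + t • v) ⁻¹' interior K ∈ nhds (0 : ℝ) := by
      apply hcont.continuousAt
      simp only [zero_smul, add_zero]
      exact isOpen_interior.mem_nhds hx0
    obtain ⟨ε, hε, hball⟩ := Metric.mem_nhds_iff.mp hnh
    have h1 : x0 + (ε / 2) • v ∈ K := interior_subset (hball (by
      rw [Metric.mem_ball, dist_zero_right, Real.norm_eq_abs, abs_of_pos (by positivity)]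
      linarith))
    have h2 := (hrange _ h1).2
    have h3 := (hrange _ (interior_subset hx0)).1
    rw [dotProduct_add, dotProduct_smul, hvv, smul_eq_mul] at h2
    linarith
  set H := v ⬝ᵥ b - v ⬝ᵥ a with hH
  have hH0 : 0 < H := by linarith
  set κ : ℝ → ℝ := fun z => 2 / H ^ 2 * min (z - v ⬝ᵥ a) (v ⬝ᵥ b - z) with hκ
  set s1 := F.shadow K with hs1d
  set s2 := G.shadow K with hs2d
  have hvol : ∀ S : Set (ℝ × ℝ), MeasurableSet S →
      volume S = ∫⁻ z, volume {r : ℝ | (r, z) ∈ S} := by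
    intro S hS
    exact Measure.prod_apply_symm (μ := (volume : Measure ℝ)) (ν := (volume : Measure ℝ)) hS
  have hmeas : ∀ S : Set (ℝ × ℝ), MeasurableSet S →
      Measurable fun z : ℝ => volume {r : ℝ | (r, z) ∈ S} := fun S hS =>
    measurable_measure_prodMk_right hS
  have hκ0 : ∀ z ∈ Set.Icc (v ⬝ᵥ a) (v ⬝ᵥ b), 0 ≤ κ z := by
    rintro z ⟨h1, h2⟩
    simp only [hκ]
    have : 0 ≤ min (z - v ⬝ᵥ a) (v ⬝ᵥ b - z) := le_min (by linarith) (by linarith)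
    positivity
  have hpt : ∀ z, (Set.Icc (v ⬝ᵥ a) (v ⬝ᵥ b)).indicator
      (fun z => ENNReal.ofReal (κ z * (s1 * s2))) z
      ≤ volume {r : ℝ | (r, z) ∈ P} * ENNReal.ofReal s2
        + volume {r : ℝ | (r, z) ∈ Q} * ENNReal.ofReal s1 := by
    intro z
    by_cases hz : z ∈ Set.Icc (v ⬝ᵥ a) (v ⬝ᵥ b)
    · rw [Set.indicator_of_mem hz]
      have hDc : IsCompact (slice F.e G.e v K z) := isCompact_slice hc z
      have hDv : Convex ℝ (slice F.e G.e v K z) := convex_slice hKv z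
      obtain ⟨x1, hx1, y1, hy1, hx1z, hy1z, h1⟩ := slice_width F hc hKv ha hb hab hrange hz
      obtain ⟨x2, hx2, y2, hy2, hx2z, hy2z, h2⟩ := slice_width G hc hKv ha hb
        (by rw [← hFG]; exact hab) (by rw [← hFG]; exact hrange) (z := z)
        (by rw [← hFG]; exact hz)
      rw [← hFG] at hx2z hy2z h2
      have hmem : ∀ x ∈ K, v ⬝ᵥ x = z → (F.e ⬝ᵥ x, G.e ⬝ᵥ x) ∈ slice F.e G.e v K z :=
        fun x hx hxz => ⟨x, ⟨hx, hxz⟩, rfl⟩
      have hDn : (slice F.e G.e v K z).Nonempty := ⟨_, hmem x1 hx1 hx1z⟩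
      obtain ⟨l, hl, hl'⟩ := hDc.exists_isMinOn hDn continuous_fst.continuousOn
      obtain ⟨r, hr, hr'⟩ := hDc.exists_isMaxOn hDn continuous_fst.continuousOn
      obtain ⟨bb, hbb, hbb'⟩ := hDc.exists_isMinOn hDn continuous_snd.continuousOn
      obtain ⟨tt, htt, htt'⟩ := hDc.exists_isMaxOn hDn continuous_snd.continuousOn
      have hmain := two_dir hDc hDv (P := {r : ℝ | (r, z) ∈ P}) (Q := {r : ℝ | (r, z) ∈ Q})
        (by
          rintro _ ⟨x, ⟨hx, hxz⟩, rfl⟩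
          have hxz' : v ⬝ᵥ x = z := hxz
          rcases hcov x hx with h3 | h3
          · left
            simp only [Frame.proj] at h3
            rw [← hv, hxz'] at h3
            exact h3
          · right
            simp only [Frame.proj] at h3
            rw [← hFG, hxz'] at h3
            exact h3) hl hr hbb htt (fun x hx => hl' hx) (fun x hx => hr' hx)
        (fun x hx => hbb' hx) (fun x hx => htt' hx)
      refine rel_arith hs1 hs2 (hκ0 z hz) ?_ ?_ hmain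
      · refine h1.trans ?_
        have e1 : F.e ⬝ᵥ x1 ≤ r.1 := hr' (hmem x1 hx1 hx1z)
        have e2 : l.1 ≤ F.e ⬝ᵥ y1 := hl' (hmem y1 hy1 hy1z)
        linarith
      · refine h2.trans ?_
        have e1 : G.e ⬝ᵥ x2 ≤ tt.2 := htt' (hmem x2 hx2 hx2z)
        have e2 : bb.2 ≤ G.e ⬝ᵥ y2 := hbb' (hmem y2 hy2 hy2z)
        linarith
    · rw [Set.indicator_of_notMem hz]
      exact zero_le
  have hκc : Continuous fun z => κ z * (s1 * s2) := by simp only [hκ]; fun_prop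
  have hint : ∫ z in Set.Icc (v ⬝ᵥ a) (v ⬝ᵥ b), κ z * (s1 * s2) = 1 / 2 * (s1 * s2) := by
    rw [integral_Icc_eq_integral_Ioc, ← intervalIntegral.integral_of_le hab.le]
    simp only [hκ]
    rw [intervalIntegral.integral_mul_const, intervalIntegral.integral_const_mul,
      integral_tent hab, ← hH]
    field_simp
    ring
  calc ENNReal.ofReal (1 / 2 * (s1 * s2))
      = ENNReal.ofReal (∫ z in Set.Icc (v ⬝ᵥ a) (v ⬝ᵥ b), κ z * (s1 * s2)) := by rw [hint]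
    _ = ∫⁻ z in Set.Icc (v ⬝ᵥ a) (v ⬝ᵥ b), ENNReal.ofReal (κ z * (s1 * s2)) := by
        apply ofReal_integral_eq_lintegral_ofReal
        · exact hκc.continuousOn.integrableOn_compact isCompact_Icc
        · refine (ae_restrict_iff' measurableSet_Icc).mpr (Filter.Eventually.of_forall ?_)
          intro z hz
          have := hκ0 z hz
          simp only [Pi.zero_apply]
          positivity
    _ = ∫⁻ z, (Set.Icc (v ⬝ᵥ a) (v ⬝ᵥ b)).indicator
          (fun z => ENNReal.ofReal (κ z * (s1 * s2))) z := by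
        rw [lintegral_indicator measurableSet_Icc]
    _ ≤ ∫⁻ z, (volume {r : ℝ | (r, z) ∈ P} * ENNReal.ofReal s2
        + volume {r : ℝ | (r, z) ∈ Q} * ENNReal.ofReal s1) := lintegral_mono hpt
    _ = volume P * ENNReal.ofReal s2 + volume Q * ENNReal.ofReal s1 := by
        rw [lintegral_add_left ((hmeas P hP).mul_const _), lintegral_mul_const _ (hmeas P hP),
          lintegral_mul_const _ (hmeas Q hQ), ← hvol P hP, ← hvol Q hQ]

end Vale.Agent.P243.H344
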