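import Vale.Agent.P243.H344.PlankMeas
import Mathlib.MeasureTheory.Measure.Lebesgue.Basic
import Mathlib.Topology.MetricSpace.Thickening

/-! # Planks in two directions: the relative plank inequality for planar convex sets -/

open MeasureTheory
open scoped ENNReal

namespace Vale.Agent.P243.H344

/-- The algebraic core: five of the segment inequalities imply the plank inequality. -/
theorem five {X Y a b c d fa fb f1 gc gd g1 : ℝ} (ha : 0 < a) (haX : a < X) (hb : 0 < b)
    (hbX : b < X) (hc : 0 < c) (hcY : c < Y) (hd : 0 < d) (hdY : d < Y) (hcd : c ≤ d)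
    (hQ : 0 ≤ X * (a * d * (Y - c) - b * c * (Y - d)) - a * b * Y * (d - c))
    (LT : b * (Y - c) ≤ fb * (Y - c) + (g1 - gc) * b)
    (TR : (X - b) * (Y - d) ≤ (f1 - fb) * (Y - d) + (g1 - gd) * (X - b))
    (RB : d * (X - a) ≤ (f1 - fa) * d + gd * (X - a))
    (BL : a * c ≤ fa * c + gc * a)
    (LR : X * (d - c) ≤ f1 * (d - c) + (gd - gc) * X) :
    X * Y ≤ f1 * Y + g1 * X := by
  have hX : 0 < X := ha.trans haX
  set r := c * X + a * (d - c) with hr
  set s := (Y - c) * X - b * (d - c) with hs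
  have hr0 : 0 < r := by
    have h1 : 0 < c * X := mul_pos hc hX
    have h2 : 0 ≤ a * (d - c) := mul_nonneg ha.le (by linarith)
    rw [hr]; linarith
  have hs0 : 0 < s := by
    have h1 : b * (d - c) ≤ X * (d - c) := mul_le_mul_of_nonneg_right hbX.le (by linarith)
    have h2 : 0 < (Y - d) * X := mul_pos (by linarith) hX
    rw [hs]; nlinarith
  have m1 := mul_nonneg (mul_nonneg (mul_nonneg hX.le (by linarith : 0 ≤ Y - d)) hr0.le)
    (sub_nonneg.mpr LT)
  have m2 := mul_nonneg (mul_nonneg (mul_nonneg hX.le (by linarith : 0 ≤ Y - c)) hr0.le)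
    (sub_nonneg.mpr TR)
  have m3 := mul_nonneg (mul_nonneg (mul_nonneg hX.le hc.le) hs0.le) (sub_nonneg.mpr RB)
  have m4 := mul_nonneg (mul_nonneg (mul_nonneg hX.le hd.le) hs0.le) (sub_nonneg.mpr BL)
  have m5 := mul_nonneg hQ (sub_nonneg.mpr LR)
  have hΛ : 0 < r * ((Y - d) * b + (Y - c) * (X - b)) := by
    apply mul_pos hr0
    have h1 : 0 < (Y - d) * b := mul_pos (by linarith) hb
    have h2 : 0 < (Y - c) * (X - b) := mul_pos (by linarith) (by linarith)
    linarith
  have key : r * ((Y - d) * b + (Y - c) * (X - b)) * (f1 * Y + g1 * X - X * Y)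
      = X * (Y - d) * r * (fb * (Y - c) + (g1 - gc) * b - b * (Y - c))
        + X * (Y - c) * r * ((f1 - fb) * (Y - d) + (g1 - gd) * (X - b) - (X - b) * (Y - d))
        + X * c * s * ((f1 - fa) * d + gd * (X - a) - d * (X - a))
        + X * d * s * (fa * c + gc * a - a * c)
        + (X * (a * d * (Y - c) - b * c * (Y - d)) - a * b * Y * (d - c))
          * (f1 * (d - c) + (gd - gc) * X - X * (d - c)) := by
    rw [hr, hs]; ring
  have h6 : 0 ≤ r * ((Y - d) * b + (Y - c) * (X - b)) * (f1 * Y + g1 * X - X * Y) := by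
    rw [key]; linarith
  have h7 := nonneg_of_mul_nonneg_right h6 hΛ
  linarith

/-- The case `c ≤ d` of `six`. -/
theorem six_aux {X Y a b c d fa fb f1 gc gd g1 : ℝ} (ha : 0 < a) (haX : a < X) (hb : 0 < b)
    (hbX : b < X) (hc : 0 < c) (hcY : c < Y) (hd : 0 < d) (hdY : d < Y) (hcd : c ≤ d)
    (LT : b * (Y - c) ≤ fb * (Y - c) + (g1 - gc) * b)
    (TR : (X - b) * (Y - d) ≤ (f1 - fb) * (Y - d) + (g1 - gd) * (X - b))
    (RB : d * (X - a) ≤ (f1 - fa) * d + gd * (X - a))
    (BL : a * c ≤ fa * c + gc * a)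
    (LR : X * (d - c) ≤ f1 * (d - c) + (gd - gc) * X)
    (BT : a ≤ b → Y * (b - a) ≤ g1 * (b - a) + (fb - fa) * Y) :
    X * Y ≤ f1 * Y + g1 * X := by
  have hX : 0 < X := ha.trans haX
  have hY : 0 < Y := hc.trans hcY
  by_cases hQ : 0 ≤ X * (a * d * (Y - c) - b * c * (Y - d)) - a * b * Y * (d - c)
  · exact five ha haX hb hbX hc hcY hd hdY hcd hQ LT TR RB BL LR
  · push Not at hQ
    have hab : a ≤ b := by
      by_contra hba
      push Not at hba
      have e : X * (a * d * (Y - c) - b * c * (Y - d)) - a * b * Y * (d - c)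
          = (a - b) * (X * (c * (Y - d)) + (X - b) * (Y * (d - c)))
            + b * ((X - b) * (Y * (d - c))) := by ring
      have h1 : 0 ≤ X * (c * (Y - d)) := by
        have : 0 ≤ Y - d := by linarith
        positivity
      have h2 : 0 ≤ (X - b) * (Y * (d - c)) :=
        mul_nonneg (by linarith) (mul_nonneg hY.le (by linarith))
      have h3 : 0 ≤ (a - b) * (X * (c * (Y - d)) + (X - b) * (Y * (d - c))) :=
        mul_nonneg (by linarith) (by linarith)
      have h4 : 0 ≤ b * ((X - b) * (Y * (d - c))) := mul_nonneg hb.le h2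
      rw [e] at hQ
      linarith
    have h := five (X := Y) (Y := X) (a := c) (b := d) (c := a) (d := b) (fa := gc) (fb := gd)
      (f1 := g1) (gc := fa) (gd := fb) (g1 := f1) hc hcY hd hdY ha haX hb hbX hab
      (by nlinarith [hQ]) (by linarith) (by linarith) (by linarith) (by linarith) (BT hab)
    linarith

/-- All the segment inequalities imply the plank inequality. -/
theorem six {X Y a b c d fa fb f1 gc gd g1 : ℝ} (ha : 0 < a) (haX : a < X) (hb : 0 < b)
    (hbX : b < X) (hc : 0 < c) (hcY : c < Y) (hd : 0 < d) (hdY : d < Y)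
    (LT : b * (Y - c) ≤ fb * (Y - c) + (g1 - gc) * b)
    (TR : (X - b) * (Y - d) ≤ (f1 - fb) * (Y - d) + (g1 - gd) * (X - b))
    (RB : d * (X - a) ≤ (f1 - fa) * d + gd * (X - a))
    (BL : a * c ≤ fa * c + gc * a)
    (LR : c ≤ d → X * (d - c) ≤ f1 * (d - c) + (gd - gc) * X)
    (LR' : d ≤ c → X * (c - d) ≤ f1 * (c - d) + (gc - gd) * X)
    (BT : a ≤ b → Y * (b - a) ≤ g1 * (b - a) + (fb - fa) * Y)
    (BT' : b ≤ a → Y * (a - b) ≤ g1 * (a - b) + (fa - fb) * Y) :
    X * Y ≤ f1 * Y + g1 * X := by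
  rcases le_total c d with hcd | hcd
  · exact six_aux ha haX hb hbX hc hcY hd hdY hcd LT TR RB BL (LR hcd) BT
  · refine six_aux (a := X - a) (b := X - b) (c := d) (d := c) (fa := f1 - fa) (fb := f1 - fb)
      (f1 := f1) (gc := gd) (gd := gc) (g1 := g1) (by linarith) (by linarith) (by linarith)
      (by linarith) hd hdY hc hcY hcd ?_ ?_ ?_ ?_ (LR' hcd) ?_
    · linarith
    · linarith
    · linarith
    · linarith
    · intro hab
      have := BT' (by linarith)
      linarith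

/-- The segment inequality: the coordinate intervals of a segment covered by planks in the two
coordinate directions. -/
theorem seg_ineq {P Q : Set ℝ} {x1 x2 y1 y2 : ℝ} (hx : x1 < x2)
    (h : ∀ t ∈ Set.Ioo (0 : ℝ) 1, x1 + t * (x2 - x1) ∈ P ∨ y1 + t * (y2 - y1) ∈ Q) :
    (x2 - x1) * |y2 - y1| ≤ (volume (P ∩ Set.Ioc x1 x2)).toReal * |y2 - y1|
      + (volume (Q ∩ Set.Ioc (min y1 y2) (max y1 y2))).toReal * (x2 - x1) := by
  rcases eq_or_ne y1 y2 with hy | hy
  · subst hy
    simp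
  have hx' : 0 < x2 - x1 := by linarith
  have hy' : 0 < |y2 - y1| := abs_pos.mpr (sub_ne_zero.mpr hy.symm)
  have hsub : Set.Ioo (0 : ℝ) 1 ⊆ (fun t => t * (x2 - x1)) ⁻¹' ((fun s => x1 + s) ⁻¹'
      (P ∩ Set.Ioc x1 x2)) ∪ (fun t => t * (y2 - y1)) ⁻¹' ((fun s => y1 + s) ⁻¹'
      (Q ∩ Set.Ioc (min y1 y2) (max y1 y2))) := by
    intro t ht
    rcases h t ht with h1 | h1
    · left
      refine ⟨h1, ?_, ?_⟩
      · have := mul_pos ht.1 hx'
        simp only
        linarith
      · have := mul_le_mul_of_nonneg_right ht.2.le hx'.le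
        simp only
        linarith
    · right
      refine ⟨h1, ?_, ?_⟩
      · simp only
        rcases lt_or_gt_of_ne hy with h2 | h2
        · rw [min_eq_left h2.le]
          have := mul_pos ht.1 (sub_pos.mpr h2)
          linarith
        · rw [min_eq_right h2.le]
          have := mul_pos (sub_pos.mpr ht.2) (sub_pos.mpr h2)
          linarith
      · simp only
        rcases lt_or_gt_of_ne hy with h2 | h2
        · rw [max_eq_right h2.le]
          have := mul_nonneg (sub_nonneg.mpr ht.2.le) (sub_pos.mpr h2).le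
          linarith
        · rw [max_eq_left h2.le]
          have := mul_nonneg ht.1.le (sub_pos.mpr h2).le
          linarith
  have h1 := (measure_mono hsub).trans (measure_union_le (μ := (volume : Measure ℝ)) _ _)
  rw [Real.volume_preimage_mul_right hx'.ne', Real.volume_preimage_mul_right
    (sub_ne_zero.mpr hy.symm), measure_preimage_add, measure_preimage_add, Real.volume_Ioo] at h1
  have f1 : volume (P ∩ Set.Ioc x1 x2) ≠ ∞ :=
    ((measure_mono Set.inter_subset_right).trans_lt measure_Ioc_lt_top).ne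
  have f2 : volume (Q ∩ Set.Ioc (min y1 y2) (max y1 y2)) ≠ ∞ :=
    ((measure_mono Set.inter_subset_right).trans_lt measure_Ioc_lt_top).ne
  have h2 := ENNReal.toReal_mono (ENNReal.add_ne_top.mpr
    ⟨ENNReal.mul_ne_top ENNReal.ofReal_ne_top f1, ENNReal.mul_ne_top ENNReal.ofReal_ne_top f2⟩) h1
  rw [ENNReal.toReal_add (ENNReal.mul_ne_top ENNReal.ofReal_ne_top f1)
    (ENNReal.mul_ne_top ENNReal.ofReal_ne_top f2), ENNReal.toReal_mul, ENNReal.toReal_mul,
    ENNReal.toReal_ofReal (by norm_num), ENNReal.toReal_ofReal (abs_nonneg _),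
    ENNReal.toReal_ofReal (abs_nonneg _), abs_inv, abs_inv, abs_of_pos hx'] at h2
  have h3 := mul_le_mul_of_nonneg_left h2 (mul_pos hx' hy').le
  have e : (x2 - x1) * |y2 - y1| * ((x2 - x1)⁻¹ * (volume (P ∩ Set.Ioc x1 x2)).toReal
      + |y2 - y1|⁻¹ * (volume (Q ∩ Set.Ioc (min y1 y2) (max y1 y2))).toReal)
      = (volume (P ∩ Set.Ioc x1 x2)).toReal * |y2 - y1|
      + (volume (Q ∩ Set.Ioc (min y1 y2) (max y1 y2))).toReal * (x2 - x1) := by
    field_simp
  rw [e] at h3
  linarith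

theorem mem_segment_of_convex {E : Set (ℝ × ℝ)} (hE : Convex ℝ E) {x1 x2 y1 y2 : ℝ}
    (h1 : (x1, y1) ∈ E) (h2 : (x2, y2) ∈ E) {t : ℝ} (ht : t ∈ Set.Ioo (0 : ℝ) 1) :
    (x1 + t * (x2 - x1), y1 + t * (y2 - y1)) ∈ E := by
  have := hE h1 h2 (sub_nonneg.mpr ht.2.le) ht.1.le (by ring)
  have e : (1 - t) • ((x1, y1) : ℝ × ℝ) + t • ((x2, y2) : ℝ × ℝ)
      = (x1 + t * (x2 - x1), y1 + t * (y2 - y1)) := by
    ext
    · simp only [Prod.fst_add, Prod.smul_fst, smul_eq_mul]; ring
    · simp only [Prod.snd_add, Prod.smul_snd, smul_eq_mul]; ring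
  rwa [e] at this

theorem cum_add {P : Set ℝ} (hP : MeasurableSet P) {u v w : ℝ} (huv : u ≤ v) (hvw : v ≤ w) :
    (volume (P ∩ Set.Ioc u w)).toReal
      = (volume (P ∩ Set.Ioc u v)).toReal + (volume (P ∩ Set.Ioc v w)).toReal := by
  have h1 : P ∩ Set.Ioc u w = (P ∩ Set.Ioc u v) ∪ (P ∩ Set.Ioc v w) := by
    rw [← Set.inter_union_distrib_left, Set.Ioc_union_Ioc_eq_Ioc huv hvw]
  have f1 : volume (P ∩ Set.Ioc u v) ≠ ∞ :=
    ((measure_mono Set.inter_subset_right).trans_lt measure_Ioc_lt_top).ne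
  have f2 : volume (P ∩ Set.Ioc v w) ≠ ∞ :=
    ((measure_mono Set.inter_subset_right).trans_lt measure_Ioc_lt_top).ne
  rw [h1, measure_union, ENNReal.toReal_add f1 f2]
  · rw [Set.disjoint_left]
    rintro x ⟨-, hx⟩ ⟨-, hx'⟩
    exact absurd hx.2 (not_le.mpr hx'.1)
  · exact hP.inter measurableSet_Ioc

/-- The plank inequality for a convex set touching the four sides of a box in interior points. -/
theorem four_points {E : Set (ℝ × ℝ)} (hE : Convex ℝ E) {P Q : Set ℝ} (hP : MeasurableSet P)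
    (hQ : MeasurableSet Q) (hcov : ∀ x ∈ E, x.1 ∈ P ∨ x.2 ∈ Q) {x0 x1 y0 y1 a b c d : ℝ}
    (ha : x0 < a) (ha' : a < x1) (hb : x0 < b) (hb' : b < x1) (hc : y0 < c) (hc' : c < y1)
    (hd : y0 < d) (hd' : d < y1) (L : (x0, c) ∈ E) (R : (x1, d) ∈ E) (T : (b, y1) ∈ E)
    (B : (a, y0) ∈ E) :
    (x1 - x0) * (y1 - y0) ≤ (volume (P ∩ Set.Ioc x0 x1)).toReal * (y1 - y0)
      + (volume (Q ∩ Set.Ioc y0 y1)).toReal * (x1 - x0) := by
  have key : ∀ {u1 u2 v1 v2 : ℝ}, (u1, v1) ∈ E → (u2, v2) ∈ E → u1 < u2 →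
      (u2 - u1) * |v2 - v1| ≤ (volume (P ∩ Set.Ioc u1 u2)).toReal * |v2 - v1|
      + (volume (Q ∩ Set.Ioc (min v1 v2) (max v1 v2))).toReal * (u2 - u1) := by
    intro u1 u2 v1 v2 h1 h2 h12
    exact seg_ineq h12 fun t ht => hcov _ (mem_segment_of_convex hE h1 h2 ht)
  have fa := cum_add hP ha.le ha'.le
  have fb := cum_add hP hb.le hb'.le
  have gc := cum_add hQ hc.le hc'.le
  have gd := cum_add hQ hd.le hd'.le
  apply six (a := a - x0) (b := b - x0) (c := c - y0) (d := d - y0)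
    (fa := (volume (P ∩ Set.Ioc x0 a)).toReal) (fb := (volume (P ∩ Set.Ioc x0 b)).toReal)
    (gc := (volume (Q ∩ Set.Ioc y0 c)).toReal) (gd := (volume (Q ∩ Set.Ioc y0 d)).toReal)
    (by linarith) (by linarith) (by linarith) (by linarith) (by linarith) (by linarith)
    (by linarith) (by linarith)
  · have h := key L T hb
    rw [abs_of_pos (by linarith), min_eq_left hc'.le, max_eq_right hc'.le] at h
    rw [gc]
    linarith
  · have h := key T R hb'
    rw [abs_sub_comm, abs_of_pos (by linarith), min_eq_right hd'.le, max_eq_left hd'.le] at h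
    rw [fb, gd]
    linarith
  · have h := key B R ha'
    rw [abs_of_pos (by linarith), min_eq_left hd.le, max_eq_right hd.le] at h
    rw [fa]
    linarith
  · have h := key L B ha
    rw [abs_sub_comm, abs_of_pos (by linarith), min_eq_right hc.le, max_eq_left hc.le] at h
    linarith
  · intro hcd
    have h := key L R (by linarith)
    rw [abs_of_nonneg (by linarith), min_eq_left (by linarith), max_eq_right (by linarith)] at h
    have h2 := cum_add hQ hc.le (by linarith : c ≤ d)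
    rw [h2]
    linarith
  · intro hcd
    have h := key L R (by linarith)
    rw [abs_sub_comm, abs_of_nonneg (by linarith), min_eq_right (by linarith),
      max_eq_left (by linarith)] at h
    have h2 := cum_add hQ hd.le (by linarith : d ≤ c)
    rw [h2]
    linarith
  · intro hab
    rcases hab.eq_or_lt with h0 | h0
    · have e : a = b := by linarith
      subst e
      simp
    · have h := key B T (by linarith)
      rw [abs_of_pos (by linarith), min_eq_left (by linarith), max_eq_right (by linarith)] at h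
      have h2 := cum_add hP ha.le (by linarith : a ≤ b)
      rw [h2]
      linarith
  · intro hab
    rcases hab.eq_or_lt with h0 | h0
    · have e : a = b := by linarith
      subst e
      simp
    · have h := key T B (by linarith)
      rw [abs_sub_comm, abs_of_pos (by linarith), min_eq_right (by linarith),
        max_eq_left (by linarith)] at h
      have h2 := cum_add hP hb.le (by linarith : b ≤ a)
      rw [h2]
      linarith

/-- The points at sup-distance at most `ε` of `D`. -/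
def fat (D : Set (ℝ × ℝ)) (ε : ℝ) : Set (ℝ × ℝ) := {x | ∃ y ∈ D, |x.1 - y.1| ≤ ε ∧ |x.2 - y.2| ≤ ε}

theorem convex_fat {D : Set (ℝ × ℝ)} (hD : Convex ℝ D) (ε : ℝ) : Convex ℝ (fat D ε) := by
  rintro x ⟨x', hx', hx1, hx2⟩ y ⟨y', hy', hy1, hy2⟩ s t hs ht hst
  refine ⟨s • x' + t • y', hD hx' hy' hs ht hst, ?_, ?_⟩
  · have e : (s • x + t • y).1 - (s • x' + t • y').1 = s * (x.1 - x'.1) + t * (y.1 - y'.1) := by
      simp only [Prod.fst_add, Prod.smul_fst, smul_eq_mul]; ring
    rw [e]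
    calc |s * (x.1 - x'.1) + t * (y.1 - y'.1)| ≤ |s * (x.1 - x'.1)| + |t * (y.1 - y'.1)| :=
          abs_add_le _ _
      _ = s * |x.1 - x'.1| + t * |y.1 - y'.1| := by
          rw [abs_mul, abs_mul, abs_of_nonneg hs, abs_of_nonneg ht]
      _ ≤ s * ε + t * ε := by gcongr
      _ = ε := by rw [← add_mul, hst, one_mul]
  · have e : (s • x + t • y).2 - (s • x' + t • y').2 = s * (x.2 - x'.2) + t * (y.2 - y'.2) := by
      simp only [Prod.snd_add, Prod.smul_snd, smul_eq_mul]; ring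
    rw [e]
    calc |s * (x.2 - x'.2) + t * (y.2 - y'.2)| ≤ |s * (x.2 - x'.2)| + |t * (y.2 - y'.2)| :=
          abs_add_le _ _
      _ = s * |x.2 - x'.2| + t * |y.2 - y'.2| := by
          rw [abs_mul, abs_mul, abs_of_nonneg hs, abs_of_nonneg ht]
      _ ≤ s * ε + t * ε := by gcongr
      _ = ε := by rw [← add_mul, hst, one_mul]

/-- The relative plank inequality in two directions, for open bases. -/
theorem two_dir_open {D : Set (ℝ × ℝ)} (hc : IsCompact D) (hv : Convex ℝ D) {P Q : Set ℝ}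
    (hP : IsOpen P) (hQ : IsOpen Q) (hcov : ∀ x ∈ D, x.1 ∈ P ∨ x.2 ∈ Q) {l r b t : ℝ × ℝ}
    (hl : l ∈ D) (hr : r ∈ D) (hb : b ∈ D) (ht : t ∈ D) (hl' : ∀ x ∈ D, l.1 ≤ x.1)
    (hr' : ∀ x ∈ D, x.1 ≤ r.1) (hb' : ∀ x ∈ D, b.2 ≤ x.2) (ht' : ∀ x ∈ D, x.2 ≤ t.2) :
    ENNReal.ofReal ((r.1 - l.1) * (t.2 - b.2))
      ≤ volume P * ENNReal.ofReal (t.2 - b.2) + volume Q * ENNReal.ofReal (r.1 - l.1) := by
  have hX : 0 ≤ r.1 - l.1 := sub_nonneg.mpr (hl' r hr)
  have hY : 0 ≤ t.2 - b.2 := sub_nonneg.mpr (hb' t ht)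
  rcases hX.eq_or_lt with h0 | hX0
  · rw [← h0, zero_mul, ENNReal.ofReal_zero]; exact zero_le
  rcases hY.eq_or_lt with h0 | hY0
  · rw [← h0, mul_zero, ENNReal.ofReal_zero]; exact zero_le
  rcases eq_or_ne (volume P) ∞ with hPi | hPf
  · rw [hPi, ENNReal.top_mul (by simpa using hY0)]; simp
  rcases eq_or_ne (volume Q) ∞ with hQi | hQf
  · rw [hQi, ENNReal.top_mul (by simpa using hX0)]; simp
  have hU : IsOpen {x : ℝ × ℝ | x.1 ∈ P ∨ x.2 ∈ Q} :=
    (hP.preimage continuous_fst).union (hQ.preimage continuous_snd)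
  obtain ⟨δ, hδ, hth⟩ := hc.exists_thickening_subset_open hU hcov
  set ε := δ / 2 with hε
  have hε0 : 0 < ε := by positivity
  have hfat : ∀ x ∈ fat D ε, x.1 ∈ P ∨ x.2 ∈ Q := by
    rintro x ⟨y, hy, h1, h2⟩
    apply hth
    rw [Metric.mem_thickening_iff]
    refine ⟨y, hy, ?_⟩
    rw [Prod.dist_eq, Real.dist_eq, Real.dist_eq]
    exact max_lt (by linarith) (by linarith)
  have hself : ∀ x : ℝ × ℝ, x ∈ D → ∀ u v : ℝ, |u| ≤ ε → |v| ≤ ε → (x.1 + u, x.2 + v) ∈ fat D ε := by
    intro x hx u v hu hv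
    exact ⟨x, hx, by simpa using hu, by simpa using hv⟩
  have habs : |ε| ≤ ε := (abs_of_pos hε0).le
  have habs' : |(-ε)| ≤ ε := by rw [abs_neg]; exact habs
  have h0 : |(0 : ℝ)| ≤ ε := by rw [abs_zero]; exact hε0.le
  have L := hself l hl (-ε) 0 habs' h0
  have R := hself r hr ε 0 habs h0
  have T := hself t ht 0 ε h0 habs
  have B := hself b hb 0 (-ε) h0 habs'
  rw [add_zero] at L R T B
  have h4 := four_points (convex_fat hv ε) hP.measurableSet hQ.measurableSet hfat
    (x0 := l.1 + -ε) (x1 := r.1 + ε) (y0 := b.2 + -ε) (y1 := t.2 + ε) (a := b.1) (b := t.1)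
    (c := l.2) (d := r.2) (by linarith [hl' b hb]) (by linarith [hr' b hb])
    (by linarith [hl' t ht]) (by linarith [hr' t ht]) (by linarith [hb' l hl])
    (by linarith [ht' l hl]) (by linarith [hb' r hr]) (by linarith [ht' r hr]) L R T B
  have p1 : (volume (P ∩ Set.Ioc (l.1 + -ε) (r.1 + ε))).toReal ≤ (volume P).toReal :=
    ENNReal.toReal_mono hPf (measure_mono Set.inter_subset_left)
  have q1 : (volume (Q ∩ Set.Ioc (b.2 + -ε) (t.2 + ε))).toReal ≤ (volume Q).toReal :=
    ENNReal.toReal_mono hQf (measure_mono Set.inter_subset_left)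
  set X := r.1 - l.1 with hXdef
  set Y := t.2 - b.2 with hYdef
  set pp := (volume P).toReal with hpp
  set qq := (volume Q).toReal with hqq
  have eX : r.1 + ε - (l.1 + -ε) = X + 2 * ε := by rw [hXdef]; ring
  have eY : t.2 + ε - (b.2 + -ε) = Y + 2 * ε := by rw [hYdef]; ring
  rw [eX, eY] at h4
  have h5 : (X + 2 * ε) * (Y + 2 * ε) ≤ pp * (Y + 2 * ε) + qq * (X + 2 * ε) := by
    refine h4.trans ?_
    gcongr
  have h6 : X * Y ≤ pp * Y + qq * X := by
    have hX2 : 0 < X + 2 * ε := by linarith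
    have hY2 : 0 < Y + 2 * ε := by linarith
    have hp0 : 0 ≤ pp := ENNReal.toReal_nonneg
    have hq0 : 0 ≤ qq := ENNReal.toReal_nonneg
    have e1 : 1 ≤ pp / (X + 2 * ε) + qq / (Y + 2 * ε) := by
      rw [div_add_div _ _ hX2.ne' hY2.ne', le_div_iff₀ (by positivity)]
      linarith
    have e2 : pp / (X + 2 * ε) ≤ pp / X := div_le_div_of_nonneg_left hp0 hX0 (by linarith)
    have e3 : qq / (Y + 2 * ε) ≤ qq / Y := div_le_div_of_nonneg_left hq0 hY0 (by linarith)
    have e4 : 1 ≤ pp / X + qq / Y := by linarith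
    rw [div_add_div _ _ hX0.ne' hY0.ne', le_div_iff₀ (by positivity)] at e4
    linarith
  calc ENNReal.ofReal (X * Y) ≤ ENNReal.ofReal (pp * Y + qq * X) := ENNReal.ofReal_le_ofReal h6
    _ = volume P * ENNReal.ofReal Y + volume Q * ENNReal.ofReal X := by
        rw [ENNReal.ofReal_add (by positivity) (by positivity),
          ENNReal.ofReal_mul ENNReal.toReal_nonneg, ENNReal.ofReal_mul ENNReal.toReal_nonneg,
          ENNReal.ofReal_toReal hPf, ENNReal.ofReal_toReal hQf]

/-- The relative plank inequality in two directions, for arbitrary bases. -/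
theorem two_dir {D : Set (ℝ × ℝ)} (hc : IsCompact D) (hv : Convex ℝ D) {P Q : Set ℝ}
    (hcov : ∀ x ∈ D, x.1 ∈ P ∨ x.2 ∈ Q) {l r b t : ℝ × ℝ}
    (hl : l ∈ D) (hr : r ∈ D) (hb : b ∈ D) (ht : t ∈ D) (hl' : ∀ x ∈ D, l.1 ≤ x.1)
    (hr' : ∀ x ∈ D, x.1 ≤ r.1) (hb' : ∀ x ∈ D, b.2 ≤ x.2) (ht' : ∀ x ∈ D, x.2 ≤ t.2) :
    ENNReal.ofReal ((r.1 - l.1) * (t.2 - b.2))
      ≤ volume P * ENNReal.ofReal (t.2 - b.2) + volume Q * ENNReal.ofReal (r.1 - l.1) := by
  apply ENNReal.le_of_forall_pos_le_add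
  intro ε hε _
  set κ : ℝ≥0∞ := ENNReal.ofReal (t.2 - b.2) + ENNReal.ofReal (r.1 - l.1) + 1 with hκ
  have hκ0 : κ ≠ 0 := by rw [hκ]; simp
  have hκt : κ ≠ ∞ := by rw [hκ]; simp
  have hη : (0 : ℝ≥0∞) < (ε : ℝ≥0∞) / κ :=
    ENNReal.div_pos (by exact_mod_cast hε.ne') hκt
  obtain ⟨P', hPP, hP', hPle⟩ := P.exists_isOpen_le_add volume hη.ne'
  obtain ⟨Q', hQQ, hQ', hQle⟩ := Q.exists_isOpen_le_add volume hη.ne'
  have h1 := two_dir_open hc hv hP' hQ' (fun x hx => (hcov x hx).imp (fun h => hPP h)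
    (fun h => hQQ h)) hl hr hb ht hl' hr' hb' ht'
  refine h1.trans ?_
  calc volume P' * ENNReal.ofReal (t.2 - b.2) + volume Q' * ENNReal.ofReal (r.1 - l.1)
      ≤ (volume P + ε / κ) * ENNReal.ofReal (t.2 - b.2)
        + (volume Q + ε / κ) * ENNReal.ofReal (r.1 - l.1) := by gcongr
    _ = volume P * ENNReal.ofReal (t.2 - b.2) + volume Q * ENNReal.ofReal (r.1 - l.1)
        + (ε / κ) * (ENNReal.ofReal (t.2 - b.2) + ENNReal.ofReal (r.1 - l.1)) := by ring
    _ ≤ volume P * ENNReal.ofReal (t.2 - b.2) + volume Q * ENNReal.ofReal (r.1 - l.1)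
        + (ε / κ) * κ := by
        gcongr
        exact le_self_add
    _ = volume P * ENNReal.ofReal (t.2 - b.2) + volume Q * ENNReal.ofReal (r.1 - l.1) + ε := by
        rw [ENNReal.div_mul_cancel hκ0 hκt]

end Vale.Agent.P243.H344
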